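import Vale.Agent.P154.Check

/-!
A second order version of the certificate checker for polynomial inequalities in four nonnegative
real variables.  The statement that it proves, `Sound`, is the same as that of the first order
checker.
-/

namespace Vale.Agent.P154.Cert

/-- `n (n - 1) / 2`. -/
def c2 (n : ℕ) : ℕ := Nat.div (Nat.mul n (Nat.sub n 1)) 2

lemma c2_eq (n : ℕ) : c2 n = n.choose 2 := by
  rw [Nat.choose_two_right]; rfl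

lemma c2_succ (n : ℕ) : (c2 (n + 1) : ℝ) = c2 n + n := by
  rw [c2_eq, c2_eq, Nat.choose_succ_succ' n 1, Nat.choose_one_right]
  push_cast
  ring

/-- One dimensional second order remainder bound for powers. -/
lemma pow_rem2 (x h : ℝ) (hx : 0 ≤ x) (hh : 0 ≤ h) (n : ℕ) (δ : ℝ) (hδ : |δ| ≤ h) :
    |(x + δ) ^ n - (x ^ n + n * x ^ (n - 1) * δ + c2 n * x ^ (n - 2) * δ ^ 2)|
      ≤ (x + h) ^ n - (x ^ n + n * x ^ (n - 1) * h + c2 n * x ^ (n - 2) * h ^ 2) := by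
  induction n with
  | zero => simp [c2]
  | succ k ih =>
    have key : ∀ y : ℝ, (x + y) ^ (k + 1)
          - (x ^ (k + 1) + ((k + 1 : ℕ) : ℝ) * x ^ (k + 1 - 1) * y
            + (c2 (k + 1) : ℝ) * x ^ (k + 1 - 2) * y ^ 2)
        = (x + y) * ((x + y) ^ k - (x ^ k + k * x ^ (k - 1) * y + c2 k * x ^ (k - 2) * y ^ 2))
          + c2 k * x ^ (k - 2) * y ^ 3 := by
      intro y
      rw [c2_succ]
      rcases k with _ | _ | j
      · simp [c2]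
      · simp [c2]
        ring
      · simp only [Nat.add_sub_cancel, pow_succ, show j + 1 + 1 - 1 = j + 1 by omega,
          show j + 1 + 1 + 1 - 2 = j + 1 by omega, show j + 1 + 1 - 2 = j by omega]
        push_cast
        ring
    rw [key δ, key h]
    have hk : (0 : ℝ) ≤ c2 k * x ^ (k - 2) := by positivity
    have hR : |x + δ| ≤ x + h := by
      calc |x + δ| ≤ |x| + |δ| := abs_add_le _ _
        _ ≤ x + h := by rw [abs_of_nonneg hx]; linarith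
    have h1 : |(x + δ) * ((x + δ) ^ k - (x ^ k + k * x ^ (k - 1) * δ + c2 k * x ^ (k - 2) * δ ^ 2))|
        ≤ (x + h) * ((x + h) ^ k - (x ^ k + k * x ^ (k - 1) * h + c2 k * x ^ (k - 2) * h ^ 2)) := by
      rw [abs_mul]
      exact mul_le_mul hR ih (abs_nonneg _) (by linarith [abs_nonneg (x + δ)])
    have h2 : |(c2 k : ℝ) * x ^ (k - 2) * δ ^ 3| ≤ c2 k * x ^ (k - 2) * h ^ 3 := by
      rw [abs_mul, abs_of_nonneg hk, abs_pow]
      exact mul_le_mul_of_nonneg_left (pow_le_pow_left₀ (abs_nonneg _) hδ 3) hk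
    exact (abs_add_le _ _).trans (add_le_add h1 h2)

/-- Second order jet of a monomial. -/
structure J2 where
  p : ℕ
  d1 : ℕ
  d2 : ℕ
  d11 : ℕ
  d12 : ℕ
  d22 : ℕ
  l : ℕ
  q : ℕ
  e : ℕ
  u : ℕ

/-- Jet of `(x + δ₁)^a (t + δ₂)^b` on `|δ₁| ≤ h1`, `|δ₂| ≤ h2`. -/
def jet2 (x h1 t h2 h11 h12 h22 a b : ℕ) : J2 :=
  let A0 := Nat.pow x a
  let A1 := Nat.mul a (Nat.pow x (Nat.sub a 1))
  let A2 := Nat.mul (c2 a) (Nat.pow x (Nat.sub a 2))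
  let B0 := Nat.pow t b
  let B1 := Nat.mul b (Nat.pow t (Nat.sub b 1))
  let B2 := Nat.mul (c2 b) (Nat.pow t (Nat.sub b 2))
  let p := Nat.mul A0 B0
  let d1 := Nat.mul A1 B0
  let d2 := Nat.mul A0 B1
  let d11 := Nat.mul A2 B0
  let d12 := Nat.mul A1 B1
  let d22 := Nat.mul A0 B2
  let l := Nat.add (Nat.mul d1 h1) (Nat.mul d2 h2)
  let q := Nat.add (Nat.mul d11 h11) (Nat.add (Nat.mul d12 h12) (Nat.mul d22 h22))
  let u := Nat.mul (Nat.pow (Nat.add x h1) a) (Nat.pow (Nat.add t h2) b)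
  ⟨p, d1, d2, d11, d12, d22, l, q, Nat.sub u (Nat.add p (Nat.add l q)), u⟩

/-- The jet is a valid approximation. -/
lemma jet2_ok (x h1 t h2 h11 h12 h22 a b : ℕ) (e11 : h11 = h1 * h1) (e12 : h12 = h1 * h2)
    (e22 : h22 = h2 * h2) (δ1 δ2 : ℝ) (hδ1 : |δ1| ≤ h1) (hδ2 : |δ2| ≤ h2) :
    |((x : ℝ) + δ1) ^ a * ((t : ℝ) + δ2) ^ b
        - (((jet2 x h1 t h2 h11 h12 h22 a b).p : ℝ) + (jet2 x h1 t h2 h11 h12 h22 a b).d1 * δ1
          + (jet2 x h1 t h2 h11 h12 h22 a b).d2 * δ2 + (jet2 x h1 t h2 h11 h12 h22 a b).d11 * δ1 ^ 2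
          + (jet2 x h1 t h2 h11 h12 h22 a b).d12 * (δ1 * δ2)
          + (jet2 x h1 t h2 h11 h12 h22 a b).d22 * δ2 ^ 2)|
      ≤ (jet2 x h1 t h2 h11 h12 h22 a b).e := by
  subst e11 e12 e22
  have hx : (0 : ℝ) ≤ x := Nat.cast_nonneg _
  have ht : (0 : ℝ) ≤ t := Nat.cast_nonneg _
  have hh1 : (0 : ℝ) ≤ h1 := Nat.cast_nonneg _
  have hh2 : (0 : ℝ) ≤ h2 := Nat.cast_nonneg _
  have r1 := pow_rem2 x h1 hx hh1 a δ1 hδ1
  have r2 := pow_rem2 t h2 ht hh2 b δ2 hδ2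
  set A0 : ℝ := (x : ℝ) ^ a with hA0
  set A1 : ℝ := (a : ℝ) * (x : ℝ) ^ (a - 1) with hA1
  set A2 : ℝ := (c2 a : ℝ) * (x : ℝ) ^ (a - 2) with hA2
  set B0 : ℝ := (t : ℝ) ^ b with hB0
  set B1 : ℝ := (b : ℝ) * (t : ℝ) ^ (b - 1) with hB1
  set B2 : ℝ := (c2 b : ℝ) * (t : ℝ) ^ (b - 2) with hB2
  have hA00 : 0 ≤ A0 := by positivity
  have hA10 : 0 ≤ A1 := by positivity
  have hA20 : 0 ≤ A2 := by positivity
  have hB00 : 0 ≤ B0 := by positivity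
  have hB10 : 0 ≤ B1 := by positivity
  have hB20 : 0 ≤ B2 := by positivity
  have ep : (((jet2 x h1 t h2 (h1 * h1) (h1 * h2) (h2 * h2) a b).p : ℕ) : ℝ) = A0 * B0 := by
    show ((Nat.mul (Nat.pow x a) (Nat.pow t b) : ℕ) : ℝ) = _
    simp [hA0, hB0]
  have ed1 : (((jet2 x h1 t h2 (h1 * h1) (h1 * h2) (h2 * h2) a b).d1 : ℕ) : ℝ) = A1 * B0 := by
    show ((Nat.mul (Nat.mul a (Nat.pow x (Nat.sub a 1))) (Nat.pow t b) : ℕ) : ℝ) = _
    simp [hA1, hB0]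
  have ed2 : (((jet2 x h1 t h2 (h1 * h1) (h1 * h2) (h2 * h2) a b).d2 : ℕ) : ℝ) = A0 * B1 := by
    show ((Nat.mul (Nat.pow x a) (Nat.mul b (Nat.pow t (Nat.sub b 1))) : ℕ) : ℝ) = _
    simp [hA0, hB1]
  have ed11 : (((jet2 x h1 t h2 (h1 * h1) (h1 * h2) (h2 * h2) a b).d11 : ℕ) : ℝ) = A2 * B0 := by
    show ((Nat.mul (Nat.mul (c2 a) (Nat.pow x (Nat.sub a 2))) (Nat.pow t b) : ℕ) : ℝ) = _
    simp [hA2, hB0]
  have ed12 : (((jet2 x h1 t h2 (h1 * h1) (h1 * h2) (h2 * h2) a b).d12 : ℕ) : ℝ) = A1 * B1 := by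
    show ((Nat.mul (Nat.mul a (Nat.pow x (Nat.sub a 1))) (Nat.mul b (Nat.pow t (Nat.sub b 1))) : ℕ) : ℝ) = _
    simp [hA1, hB1]
  have ed22 : (((jet2 x h1 t h2 (h1 * h1) (h1 * h2) (h2 * h2) a b).d22 : ℕ) : ℝ) = A0 * B2 := by
    show ((Nat.mul (Nat.pow x a) (Nat.mul (c2 b) (Nat.pow t (Nat.sub b 2))) : ℕ) : ℝ) = _
    simp [hA0, hB2]
  set PH : ℝ := ((x : ℝ) + h1) ^ a with hPH
  set QH : ℝ := ((t : ℝ) + h2) ^ b with hQH
  have ee : PH * QH - (A0 * B0 + (A1 * B0 * h1 + A0 * B1 * h2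
        + (A2 * B0 * (h1 * h1) + (A1 * B1 * (h1 * h2) + A0 * B2 * (h2 * h2)))))
      ≤ (((jet2 x h1 t h2 (h1 * h1) (h1 * h2) (h2 * h2) a b).e : ℕ) : ℝ) := by
    show _ ≤ ((Nat.sub (Nat.mul (Nat.pow (Nat.add x h1) a) (Nat.pow (Nat.add t h2) b))
      (Nat.add (Nat.mul (Nat.pow x a) (Nat.pow t b))
      (Nat.add (Nat.add (Nat.mul (Nat.mul (Nat.mul a (Nat.pow x (Nat.sub a 1))) (Nat.pow t b)) h1)
        (Nat.mul (Nat.mul (Nat.pow x a) (Nat.mul b (Nat.pow t (Nat.sub b 1)))) h2))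
      (Nat.add (Nat.mul (Nat.mul (Nat.mul (c2 a) (Nat.pow x (Nat.sub a 2))) (Nat.pow t b)) (h1 * h1))
        (Nat.add (Nat.mul (Nat.mul (Nat.mul a (Nat.pow x (Nat.sub a 1))) (Nat.mul b (Nat.pow t (Nat.sub b 1)))) (h1 * h2))
          (Nat.mul (Nat.mul (Nat.pow x a) (Nat.mul (c2 b) (Nat.pow t (Nat.sub b 2)))) (h2 * h2)))))) : ℕ) : ℝ)
    refine le_trans (le_of_eq ?_) (cast_sub_ge _ _)
    show _ = (((((x + h1) ^ a * (t + h2) ^ b : ℕ) : ℝ))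
      - ((x ^ a * t ^ b + ((a * x ^ (a - 1) * t ^ b * h1 + x ^ a * (b * t ^ (b - 1)) * h2)
        + (c2 a * x ^ (a - 2) * t ^ b * (h1 * h1) + (a * x ^ (a - 1) * (b * t ^ (b - 1)) * (h1 * h2)
          + x ^ a * (c2 b * t ^ (b - 2)) * (h2 * h2)))) : ℕ) : ℝ))
    push_cast
    rw [hPH, hQH, hA0, hA1, hA2, hB0, hB1, hB2]
  rw [ep, ed1, ed2, ed11, ed12, ed22]
  refine le_trans ?_ ee
  set P : ℝ := ((x : ℝ) + δ1) ^ a with hP
  set Q : ℝ := ((t : ℝ) + δ2) ^ b with hQ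
  set R1 : ℝ := PH - (A0 + A1 * h1 + A2 * h1 ^ 2) with hR1
  set R2 : ℝ := QH - (B0 + B1 * h2 + B2 * h2 ^ 2) with hR2
  have hR10 : 0 ≤ R1 := le_trans (abs_nonneg _) r1
  have hR20 : 0 ≤ R2 := le_trans (abs_nonneg _) r2
  have hQabs : |Q| ≤ QH := by
    rw [hQ, abs_pow]
    apply pow_le_pow_left₀ (abs_nonneg _)
    calc |(t : ℝ) + δ2| ≤ |(t : ℝ)| + |δ2| := abs_add_le _ _
      _ ≤ t + h2 := by rw [abs_of_nonneg ht]; linarith
  set r1v : ℝ := P - (A0 + A1 * δ1 + A2 * δ1 ^ 2) with hr1v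
  set r2v : ℝ := Q - (B0 + B1 * δ2 + B2 * δ2 ^ 2) with hr2v
  have e1 : P * Q - (A0 * B0 + A1 * B0 * δ1 + A0 * B1 * δ2 + A2 * B0 * δ1 ^ 2 + A1 * B1 * (δ1 * δ2)
        + A0 * B2 * δ2 ^ 2)
      = A1 * B2 * (δ1 * δ2 ^ 2) + A2 * B1 * (δ1 ^ 2 * δ2) + A2 * B2 * (δ1 ^ 2 * δ2 ^ 2)
        + (A0 + A1 * δ1 + A2 * δ1 ^ 2) * r2v + r1v * Q := by
    rw [hr1v, hr2v]; ring
  have e2 : PH * QH - (A0 * B0 + (A1 * B0 * h1 + A0 * B1 * h2
        + (A2 * B0 * (h1 * h1) + (A1 * B1 * (h1 * h2) + A0 * B2 * (h2 * h2)))))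
      = A1 * B2 * ((h1 : ℝ) * h2 ^ 2) + A2 * B1 * ((h1 : ℝ) ^ 2 * h2) + A2 * B2 * ((h1 : ℝ) ^ 2 * h2 ^ 2)
        + (A0 + A1 * h1 + A2 * h1 ^ 2) * R2 + R1 * QH := by
    rw [hR1, hR2]; ring
  rw [e1, e2]
  have d1a : |δ1| ^ 2 ≤ (h1 : ℝ) ^ 2 := pow_le_pow_left₀ (abs_nonneg _) hδ1 2
  have d2a : |δ2| ^ 2 ≤ (h2 : ℝ) ^ 2 := pow_le_pow_left₀ (abs_nonneg _) hδ2 2
  have a1 : |A1 * B2 * (δ1 * δ2 ^ 2)| ≤ A1 * B2 * ((h1 : ℝ) * h2 ^ 2) := by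
    rw [abs_mul, abs_mul A1, abs_of_nonneg hA10, abs_of_nonneg hB20, abs_mul, abs_pow]
    exact mul_le_mul_of_nonneg_left (mul_le_mul hδ1 d2a (by positivity) hh1) (by positivity)
  have a2 : |A2 * B1 * (δ1 ^ 2 * δ2)| ≤ A2 * B1 * ((h1 : ℝ) ^ 2 * h2) := by
    rw [abs_mul, abs_mul A2, abs_of_nonneg hA20, abs_of_nonneg hB10, abs_mul, abs_pow]
    exact mul_le_mul_of_nonneg_left (mul_le_mul d1a hδ2 (abs_nonneg _) (by positivity)) (by positivity)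
  have a3 : |A2 * B2 * (δ1 ^ 2 * δ2 ^ 2)| ≤ A2 * B2 * ((h1 : ℝ) ^ 2 * h2 ^ 2) := by
    rw [abs_mul, abs_mul A2, abs_of_nonneg hA20, abs_of_nonneg hB20, abs_mul, abs_pow, abs_pow]
    exact mul_le_mul_of_nonneg_left (mul_le_mul d1a d2a (by positivity) (by positivity)) (by positivity)
  have hbase : |A0 + A1 * δ1 + A2 * δ1 ^ 2| ≤ A0 + A1 * h1 + A2 * h1 ^ 2 := by
    calc |A0 + A1 * δ1 + A2 * δ1 ^ 2| ≤ |A0 + A1 * δ1| + |A2 * δ1 ^ 2| := abs_add_le _ _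
      _ ≤ |A0| + |A1 * δ1| + |A2 * δ1 ^ 2| := by gcongr; exact abs_add_le _ _
      _ ≤ A0 + A1 * h1 + A2 * h1 ^ 2 := by
        rw [abs_of_nonneg hA00, abs_mul, abs_of_nonneg hA10, abs_mul, abs_of_nonneg hA20, abs_pow]
        have b1 := mul_le_mul_of_nonneg_left hδ1 hA10
        have b2 := mul_le_mul_of_nonneg_left d1a hA20
        linarith
  have a4 : |(A0 + A1 * δ1 + A2 * δ1 ^ 2) * r2v| ≤ (A0 + A1 * h1 + A2 * h1 ^ 2) * R2 := by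
    rw [abs_mul]
    exact mul_le_mul hbase r2 (abs_nonneg _) (by positivity)
  have a5 : |r1v * Q| ≤ R1 * QH := by
    rw [abs_mul]
    exact mul_le_mul r1 hQabs (abs_nonneg _) hR10
  calc _ ≤ |A1 * B2 * (δ1 * δ2 ^ 2) + A2 * B1 * (δ1 ^ 2 * δ2) + A2 * B2 * (δ1 ^ 2 * δ2 ^ 2)
            + (A0 + A1 * δ1 + A2 * δ1 ^ 2) * r2v| + |r1v * Q| := abs_add_le _ _
    _ ≤ |A1 * B2 * (δ1 * δ2 ^ 2) + A2 * B1 * (δ1 ^ 2 * δ2) + A2 * B2 * (δ1 ^ 2 * δ2 ^ 2)|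
            + |(A0 + A1 * δ1 + A2 * δ1 ^ 2) * r2v| + |r1v * Q| := by
          gcongr; exact abs_add_le _ _
    _ ≤ |A1 * B2 * (δ1 * δ2 ^ 2) + A2 * B1 * (δ1 ^ 2 * δ2)| + |A2 * B2 * (δ1 ^ 2 * δ2 ^ 2)|
            + |(A0 + A1 * δ1 + A2 * δ1 ^ 2) * r2v| + |r1v * Q| := by
          gcongr; exact abs_add_le _ _
    _ ≤ |A1 * B2 * (δ1 * δ2 ^ 2)| + |A2 * B1 * (δ1 ^ 2 * δ2)| + |A2 * B2 * (δ1 ^ 2 * δ2 ^ 2)|
            + |(A0 + A1 * δ1 + A2 * δ1 ^ 2) * r2v| + |r1v * Q| := by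
          gcongr; exact abs_add_le _ _
    _ ≤ _ := by linarith

/-- Sum of jets: value, derivatives and remainder. -/
structure JS where
  p : ℕ
  d1 : ℕ
  d2 : ℕ
  d11 : ℕ
  d12 : ℕ
  d22 : ℕ
  e : ℕ

/-- Sum of jets of a term list. -/
noncomputable def sumJ (x h1 t h2 h11 h12 h22 : ℕ) (l : TL) : JS :=
  List.rec (motive := fun _ => JS) ⟨0, 0, 0, 0, 0, 0, 0⟩
    (fun c _ ih =>
      let J := jet2 x h1 t h2 h11 h12 h22 c.2.1 c.2.2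
      ⟨Nat.add (Nat.mul c.1 J.p) ih.p, Nat.add (Nat.mul c.1 J.d1) ih.d1,
       Nat.add (Nat.mul c.1 J.d2) ih.d2, Nat.add (Nat.mul c.1 J.d11) ih.d11,
       Nat.add (Nat.mul c.1 J.d12) ih.d12, Nat.add (Nat.mul c.1 J.d22) ih.d22,
       Nat.add (Nat.mul c.1 J.e) ih.e⟩) l

/-- The second order part of a jet sum. -/
noncomputable def JS.T (J : JS) (δ1 δ2 : ℝ) : ℝ :=
  (J.p : ℝ) + J.d1 * δ1 + J.d2 * δ2 + J.d11 * δ1 ^ 2 + J.d12 * (δ1 * δ2) + J.d22 * δ2 ^ 2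

lemma sumJ_ok (x h1 t h2 h11 h12 h22 : ℕ) (e11 : h11 = h1 * h1) (e12 : h12 = h1 * h2)
    (e22 : h22 = h2 * h2) (l : TL) (δ1 δ2 : ℝ) (hδ1 : |δ1| ≤ h1) (hδ2 : |δ2| ≤ h2) :
    |evalTL l ((x : ℝ) + δ1) ((t : ℝ) + δ2) - (sumJ x h1 t h2 h11 h12 h22 l).T δ1 δ2|
      ≤ (sumJ x h1 t h2 h11 h12 h22 l).e := by
  induction l with
  | nil =>
    show |(0 : ℝ) - JS.T ⟨0, 0, 0, 0, 0, 0, 0⟩ δ1 δ2| ≤ ((0 : ℕ) : ℝ)
    simp [JS.T]
  | cons c l ih =>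
    have hJ := jet2_ok x h1 t h2 h11 h12 h22 c.2.1 c.2.2 e11 e12 e22 δ1 δ2 hδ1 hδ2
    set J := jet2 x h1 t h2 h11 h12 h22 c.2.1 c.2.2 with hJdef
    set S := sumJ x h1 t h2 h11 h12 h22 l with hS
    have e : sumJ x h1 t h2 h11 h12 h22 (c :: l) = ⟨c.1 * J.p + S.p, c.1 * J.d1 + S.d1,
       c.1 * J.d2 + S.d2, c.1 * J.d11 + S.d11, c.1 * J.d12 + S.d12, c.1 * J.d22 + S.d22,
       c.1 * J.e + S.e⟩ := rfl
    rw [e]
    simp only [evalTL_cons, JS.T]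
    push_cast
    have hc : (0 : ℝ) ≤ c.1 := Nat.cast_nonneg _
    simp only [JS.T] at ih
    have e2 : (c.1 : ℝ) * (x + δ1) ^ c.2.1 * (t + δ2) ^ c.2.2 + evalTL l (x + δ1) (t + δ2)
          - ((c.1 : ℝ) * J.p + S.p + ((c.1 : ℝ) * J.d1 + S.d1) * δ1 + ((c.1 : ℝ) * J.d2 + S.d2) * δ2
            + ((c.1 : ℝ) * J.d11 + S.d11) * δ1 ^ 2 + ((c.1 : ℝ) * J.d12 + S.d12) * (δ1 * δ2)
            + ((c.1 : ℝ) * J.d22 + S.d22) * δ2 ^ 2)
        = (c.1 : ℝ) * (((x : ℝ) + δ1) ^ c.2.1 * ((t : ℝ) + δ2) ^ c.2.2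
            - ((J.p : ℝ) + J.d1 * δ1 + J.d2 * δ2 + J.d11 * δ1 ^ 2 + J.d12 * (δ1 * δ2) + J.d22 * δ2 ^ 2))
          + (evalTL l (x + δ1) (t + δ2)
            - ((S.p : ℝ) + S.d1 * δ1 + S.d2 * δ2 + S.d11 * δ1 ^ 2 + S.d12 * (δ1 * δ2) + S.d22 * δ2 ^ 2)) := by
      ring
    rw [e2]
    refine (abs_add_le _ _).trans (add_le_add ?_ ih)
    rw [abs_mul, abs_of_nonneg hc]
    exact mul_le_mul_of_nonneg_left hJ hc

/-- Data of a group at an outer cell, with an offset `K` on the signed numbers. -/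
structure CO where
  n : ℕ
  s : ℕ
  v : ℕ
  g1 : ℕ
  g2 : ℕ
  g11 : ℕ
  g12 : ℕ
  g22 : ℕ
  av : ℕ
  cl : ℕ
  cq : ℕ
  e : ℕ
  ok : Bool

/-- The group at an outer cell. -/
noncomputable def mkCO (K x h1 t h2 h11 h12 h22 : ℕ) (g : Gp) : CO :=
  let P := sumJ x h1 t h2 h11 h12 h22 g.pos
  let N := sumJ x h1 t h2 h11 h12 h22 g.neg
  ⟨g.n, g.s,
    Nat.sub (Nat.add P.p K) N.p, Nat.sub (Nat.add P.d1 K) N.d1, Nat.sub (Nat.add P.d2 K) N.d2,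
    Nat.sub (Nat.add P.d11 K) N.d11, Nat.sub (Nat.add P.d12 K) N.d12,
    Nat.sub (Nat.add P.d22 K) N.d22,
    absDiff P.p N.p,
    Nat.add (Nat.mul (absDiff P.d1 N.d1) h1) (Nat.mul (absDiff P.d2 N.d2) h2),
    Nat.add (Nat.mul (absDiff P.d11 N.d11) h11)
      (Nat.add (Nat.mul (absDiff P.d12 N.d12) h12) (Nat.mul (absDiff P.d22 N.d22) h22)),
    Nat.add P.e N.e,
    and (Nat.ble N.p K) (and (Nat.ble N.d1 K) (and (Nat.ble N.d2 K)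
      (and (Nat.ble N.d11 K) (and (Nat.ble N.d12 K) (Nat.ble N.d22 K)))))⟩

/-- All the groups at an outer cell. -/
noncomputable def mkOuter2 (K x h1 t h2 h11 h12 h22 : ℕ) (gs : List Gp) : List CO :=
  List.rec (motive := fun _ => List CO) []
    (fun g _ ih => mkCO K x h1 t h2 h11 h12 h22 g :: ih) gs

/-- All offsets are large enough. -/
noncomputable def allOk (l : List CO) : Bool :=
  List.rec (motive := fun _ => Bool) true (fun c _ ih => and c.ok ih) l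

/-- Accumulators of the inner evaluation. -/
structure Ac where
  Av : ℕ
  Ag1 : ℕ
  Ag2 : ℕ
  Ag11 : ℕ
  Ag12 : ℕ
  Ag22 : ℕ
  Am1 : ℕ
  Am2 : ℕ
  Am11 : ℕ
  Am12 : ℕ
  Am22 : ℕ
  A13 : ℕ
  A14 : ℕ
  A23 : ℕ
  A24 : ℕ
  Sp : ℕ
  S1 : ℕ
  S2 : ℕ
  S11 : ℕ
  S12 : ℕ
  S22 : ℕ
  R : ℕ

/-- The inner evaluation. -/
noncomputable def innerAc (q h3 s h4 h33 h34 h44 : ℕ) (l : List CO) : Ac :=
  List.rec (motive := fun _ => Ac) ⟨0, 0, 0, 0, 0, 0, 0, 0, 0, 0, 0, 0, 0, 0, 0, 0, 0, 0, 0, 0, 0, 0⟩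
    (fun C _ A =>
      let M := jet2 q h3 s h4 h33 h34 h44 C.n C.s
      ⟨Nat.add (Nat.mul C.v M.p) A.Av, Nat.add (Nat.mul C.g1 M.p) A.Ag1,
       Nat.add (Nat.mul C.g2 M.p) A.Ag2, Nat.add (Nat.mul C.g11 M.p) A.Ag11,
       Nat.add (Nat.mul C.g12 M.p) A.Ag12, Nat.add (Nat.mul C.g22 M.p) A.Ag22,
       Nat.add (Nat.mul C.v M.d1) A.Am1, Nat.add (Nat.mul C.v M.d2) A.Am2,
       Nat.add (Nat.mul C.v M.d11) A.Am11, Nat.add (Nat.mul C.v M.d12) A.Am12,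
       Nat.add (Nat.mul C.v M.d22) A.Am22,
       Nat.add (Nat.mul C.g1 M.d1) A.A13, Nat.add (Nat.mul C.g1 M.d2) A.A14,
       Nat.add (Nat.mul C.g2 M.d1) A.A23, Nat.add (Nat.mul C.g2 M.d2) A.A24,
       Nat.add M.p A.Sp, Nat.add M.d1 A.S1, Nat.add M.d2 A.S2,
       Nat.add M.d11 A.S11, Nat.add M.d12 A.S12, Nat.add M.d22 A.S22,
       Nat.add (Nat.add (Nat.mul C.cl M.q) (Nat.mul C.cq (Nat.add M.l M.q)))
         (Nat.add (Nat.add (Nat.mul C.e M.u) (Nat.mul (Nat.add C.av (Nat.add C.cl C.cq)) M.e)) A.R)⟩) l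

/-- The bound at an inner leaf is negative. -/
def leafOK2 (K h1 h2 h3 h4 h11 h12 h22 h33 h34 h44 : ℕ) (A : Ac) : Bool :=
  let Kp := Nat.mul K A.Sp
  let K1 := Nat.mul K A.S1
  let K2 := Nat.mul K A.S2
  Nat.blt
    (Nat.add A.Av
      (Nat.add (Nat.mul (absDiff A.Ag1 Kp) h1)
      (Nat.add (Nat.mul (absDiff A.Ag2 Kp) h2)
      (Nat.add (Nat.mul (absDiff A.Am1 K1) h3)
      (Nat.add (Nat.mul (absDiff A.Am2 K2) h4)
      (Nat.add (Nat.mul (absDiff A.Ag11 Kp) h11)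
      (Nat.add (Nat.mul (absDiff A.Ag12 Kp) h12)
      (Nat.add (Nat.mul (absDiff A.Ag22 Kp) h22)
      (Nat.add (Nat.mul (absDiff A.Am11 (Nat.mul K A.S11)) h33)
      (Nat.add (Nat.mul (absDiff A.Am12 (Nat.mul K A.S12)) h34)
      (Nat.add (Nat.mul (absDiff A.Am22 (Nat.mul K A.S22)) h44)
      (Nat.add (Nat.mul (absDiff A.A13 K1) (Nat.mul h1 h3))
      (Nat.add (Nat.mul (absDiff A.A14 K2) (Nat.mul h1 h4))
      (Nat.add (Nat.mul (absDiff A.A23 K1) (Nat.mul h2 h3))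
      (Nat.add (Nat.mul (absDiff A.A24 K2) (Nat.mul h2 h4)) A.R)))))))))))))))
    Kp

/-- The second order part of the accumulators. -/
noncomputable def Ac.T (K : ℝ) (A : Ac) (δ1 δ2 δ3 δ4 : ℝ) : ℝ :=
  ((A.Av : ℝ) - K * A.Sp)
    + ((A.Ag1 : ℝ) - K * A.Sp) * δ1 + ((A.Ag2 : ℝ) - K * A.Sp) * δ2
    + ((A.Am1 : ℝ) - K * A.S1) * δ3 + ((A.Am2 : ℝ) - K * A.S2) * δ4
    + ((A.Ag11 : ℝ) - K * A.Sp) * δ1 ^ 2 + ((A.Ag12 : ℝ) - K * A.Sp) * (δ1 * δ2)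
    + ((A.Ag22 : ℝ) - K * A.Sp) * δ2 ^ 2
    + ((A.Am11 : ℝ) - K * A.S11) * δ3 ^ 2 + ((A.Am12 : ℝ) - K * A.S12) * (δ3 * δ4)
    + ((A.Am22 : ℝ) - K * A.S22) * δ4 ^ 2
    + ((A.A13 : ℝ) - K * A.S1) * (δ1 * δ3) + ((A.A14 : ℝ) - K * A.S2) * (δ1 * δ4)
    + ((A.A23 : ℝ) - K * A.S1) * (δ2 * δ3) + ((A.A24 : ℝ) - K * A.S2) * (δ2 * δ4)

/-- The bound for the product of the jets of a group. -/
lemma step_bound2 (f mv v g1 g2 g11 g12 g22 e p m1 m2 m11 m12 m22 Ee u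
      δ1 δ2 δ3 δ4 h1 h2 h3 h4 : ℝ)
    (hf : |f - (v + g1 * δ1 + g2 * δ2 + g11 * δ1 ^ 2 + g12 * (δ1 * δ2) + g22 * δ2 ^ 2)| ≤ e)
    (hM : |mv - (p + m1 * δ3 + m2 * δ4 + m11 * δ3 ^ 2 + m12 * (δ3 * δ4) + m22 * δ4 ^ 2)| ≤ Ee)
    (hu : |mv| ≤ u) (hm1 : 0 ≤ m1) (hm2 : 0 ≤ m2) (hm11 : 0 ≤ m11) (hm12 : 0 ≤ m12) (hm22 : 0 ≤ m22)
    (h1' : |δ1| ≤ h1) (h2' : |δ2| ≤ h2) (h3' : |δ3| ≤ h3) (h4' : |δ4| ≤ h4) :
    let cl := |g1| * h1 + |g2| * h2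
    let cq := |g11| * (h1 * h1) + |g12| * (h1 * h2) + |g22| * (h2 * h2)
    let ml := m1 * h3 + m2 * h4
    let mq := m11 * (h3 * h3) + m12 * (h3 * h4) + m22 * (h4 * h4)
    |f * mv - (v * p + g1 * p * δ1 + g2 * p * δ2 + v * m1 * δ3 + v * m2 * δ4
        + g11 * p * δ1 ^ 2 + g12 * p * (δ1 * δ2) + g22 * p * δ2 ^ 2
        + v * m11 * δ3 ^ 2 + v * m12 * (δ3 * δ4) + v * m22 * δ4 ^ 2
        + g1 * m1 * (δ1 * δ3) + g1 * m2 * (δ1 * δ4) + g2 * m1 * (δ2 * δ3) + g2 * m2 * (δ2 * δ4))|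
      ≤ cl * mq + cq * (ml + mq) + e * u + (|v| + (cl + cq)) * Ee := by
  intro cl cq ml mq
  set Lc := g1 * δ1 + g2 * δ2 with hLc
  set Qc := g11 * δ1 ^ 2 + g12 * (δ1 * δ2) + g22 * δ2 ^ 2 with hQc
  set Lm := m1 * δ3 + m2 * δ4 with hLm
  set Qm := m11 * δ3 ^ 2 + m12 * (δ3 * δ4) + m22 * δ4 ^ 2 with hQm
  set εc := f - (v + Lc + Qc) with hεc
  set εm := mv - (p + Lm + Qm) with hεm
  have hε1 : |εc| ≤ e := by
    have : εc = f - (v + g1 * δ1 + g2 * δ2 + g11 * δ1 ^ 2 + g12 * (δ1 * δ2) + g22 * δ2 ^ 2) := by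
      rw [hεc, hLc, hQc]; ring
    rw [this]; exact hf
  have hε2 : |εm| ≤ Ee := by
    have : εm = mv - (p + m1 * δ3 + m2 * δ4 + m11 * δ3 ^ 2 + m12 * (δ3 * δ4) + m22 * δ4 ^ 2) := by
      rw [hεm, hLm, hQm]; ring
    rw [this]; exact hM
  have hd1 : |δ1 * δ1| ≤ h1 * h1 := by
    rw [abs_mul]; exact mul_le_mul h1' h1' (abs_nonneg _) ((abs_nonneg _).trans h1')
  have hd2 : |δ2 * δ2| ≤ h2 * h2 := by
    rw [abs_mul]; exact mul_le_mul h2' h2' (abs_nonneg _) ((abs_nonneg _).trans h2')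
  have hd3 : |δ3 * δ3| ≤ h3 * h3 := by
    rw [abs_mul]; exact mul_le_mul h3' h3' (abs_nonneg _) ((abs_nonneg _).trans h3')
  have hd4 : |δ4 * δ4| ≤ h4 * h4 := by
    rw [abs_mul]; exact mul_le_mul h4' h4' (abs_nonneg _) ((abs_nonneg _).trans h4')
  have hd12 : |δ1 * δ2| ≤ h1 * h2 := by
    rw [abs_mul]; exact mul_le_mul h1' h2' (abs_nonneg _) ((abs_nonneg _).trans h1')
  have hd34 : |δ3 * δ4| ≤ h3 * h4 := by
    rw [abs_mul]; exact mul_le_mul h3' h4' (abs_nonneg _) ((abs_nonneg _).trans h3')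
  have hLc1 : |Lc| ≤ cl := by
    refine (abs_add_le _ _).trans (add_le_add ?_ ?_)
    · rw [abs_mul]; exact mul_le_mul_of_nonneg_left h1' (abs_nonneg _)
    · rw [abs_mul]; exact mul_le_mul_of_nonneg_left h2' (abs_nonneg _)
  have hQc1 : |Qc| ≤ cq := by
    have e1 : |g11 * δ1 ^ 2| ≤ |g11| * (h1 * h1) := by
      rw [abs_mul, sq]; exact mul_le_mul_of_nonneg_left hd1 (abs_nonneg _)
    have e2 : |g12 * (δ1 * δ2)| ≤ |g12| * (h1 * h2) := by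
      rw [abs_mul]; exact mul_le_mul_of_nonneg_left hd12 (abs_nonneg _)
    have e3 : |g22 * δ2 ^ 2| ≤ |g22| * (h2 * h2) := by
      rw [abs_mul, sq]; exact mul_le_mul_of_nonneg_left hd2 (abs_nonneg _)
    exact (abs_add_le _ _).trans (add_le_add ((abs_add_le _ _).trans (add_le_add e1 e2)) e3)
  have hLm1 : |Lm| ≤ ml := by
    refine (abs_add_le _ _).trans (add_le_add ?_ ?_)
    · rw [abs_mul, abs_of_nonneg hm1]; exact mul_le_mul_of_nonneg_left h3' hm1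
    · rw [abs_mul, abs_of_nonneg hm2]; exact mul_le_mul_of_nonneg_left h4' hm2
  have hQm1 : |Qm| ≤ mq := by
    have e1 : |m11 * δ3 ^ 2| ≤ m11 * (h3 * h3) := by
      rw [abs_mul, abs_of_nonneg hm11, sq]; exact mul_le_mul_of_nonneg_left hd3 hm11
    have e2 : |m12 * (δ3 * δ4)| ≤ m12 * (h3 * h4) := by
      rw [abs_mul, abs_of_nonneg hm12]; exact mul_le_mul_of_nonneg_left hd34 hm12
    have e3 : |m22 * δ4 ^ 2| ≤ m22 * (h4 * h4) := by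
      rw [abs_mul, abs_of_nonneg hm22, sq]; exact mul_le_mul_of_nonneg_left hd4 hm22
    exact (abs_add_le _ _).trans (add_le_add ((abs_add_le _ _).trans (add_le_add e1 e2)) e3)
  have hcl0 : 0 ≤ cl := le_trans (abs_nonneg _) hLc1
  have hcq0 : 0 ≤ cq := le_trans (abs_nonneg _) hQc1
  have hml0 : 0 ≤ ml := le_trans (abs_nonneg _) hLm1
  have hmq0 : 0 ≤ mq := le_trans (abs_nonneg _) hQm1
  have he0 : 0 ≤ e := le_trans (abs_nonneg _) hε1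
  have hE0 : 0 ≤ Ee := le_trans (abs_nonneg _) hε2
  have key : f * mv - (v * p + g1 * p * δ1 + g2 * p * δ2 + v * m1 * δ3 + v * m2 * δ4
        + g11 * p * δ1 ^ 2 + g12 * p * (δ1 * δ2) + g22 * p * δ2 ^ 2
        + v * m11 * δ3 ^ 2 + v * m12 * (δ3 * δ4) + v * m22 * δ4 ^ 2
        + g1 * m1 * (δ1 * δ3) + g1 * m2 * (δ1 * δ4) + g2 * m1 * (δ2 * δ3) + g2 * m2 * (δ2 * δ4))
      = Lc * Qm + Qc * (Lm + Qm) + εc * mv + (v + Lc + Qc) * εm := by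
    have e1 : f = v + Lc + Qc + εc := by rw [hεc]; ring
    have e2 : mv = p + Lm + Qm + εm := by rw [hεm]; ring
    have e3 : εc * mv = εc * (p + Lm + Qm + εm) := by rw [← e2]
    rw [e3]
    rw [e1, e2, hLc, hQc, hLm, hQm]
    ring
  rw [key]
  have a1 : |Lc * Qm| ≤ cl * mq := by
    rw [abs_mul]; exact mul_le_mul hLc1 hQm1 (abs_nonneg _) hcl0
  have a2 : |Qc * (Lm + Qm)| ≤ cq * (ml + mq) := by
    rw [abs_mul]
    exact mul_le_mul hQc1 ((abs_add_le _ _).trans (add_le_add hLm1 hQm1)) (abs_nonneg _) hcq0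
  have a3 : |εc * mv| ≤ e * u := by
    rw [abs_mul]; exact mul_le_mul hε1 hu (abs_nonneg _) he0
  have a4 : |(v + Lc + Qc) * εm| ≤ (|v| + (cl + cq)) * Ee := by
    rw [abs_mul]
    refine mul_le_mul ?_ hε2 (abs_nonneg _) (by positivity)
    calc |v + Lc + Qc| ≤ |v + Lc| + |Qc| := abs_add_le _ _
      _ ≤ |v| + |Lc| + |Qc| := by gcongr; exact abs_add_le _ _
      _ ≤ _ := by linarith
  calc _ ≤ |Lc * Qm + Qc * (Lm + Qm) + εc * mv| + |(v + Lc + Qc) * εm| := abs_add_le _ _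
    _ ≤ |Lc * Qm + Qc * (Lm + Qm)| + |εc * mv| + |(v + Lc + Qc) * εm| := by
        gcongr; exact abs_add_le _ _
    _ ≤ |Lc * Qm| + |Qc * (Lm + Qm)| + |εc * mv| + |(v + Lc + Qc) * εm| := by
        gcongr; exact abs_add_le _ _
    _ ≤ _ := by linarith

lemma cast_off (P N K : ℕ) (hN : N ≤ K) : ((Nat.sub (Nat.add P K) N : ℕ) : ℝ) = (P : ℝ) + K - N := by
  have : N ≤ P + K := by omega
  show (((P + K - N : ℕ)) : ℝ) = _
  rw [Nat.cast_sub this]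
  push_cast
  ring

lemma allOk_cons (C : CO) (l : List CO) (h : allOk (C :: l) = true) : C.ok = true ∧ allOk l = true := by
  have : and C.ok (allOk l) = true := h
  simpa using this

lemma innerAc_spec (K x h1 t h2 h11 h12 h22 q h3 s h4 h33 h34 h44 : ℕ) (gs : List Gp)
    (e11 : h11 = h1 * h1) (e12 : h12 = h1 * h2) (e22 : h22 = h2 * h2)
    (e33 : h33 = h3 * h3) (e34 : h34 = h3 * h4) (e44 : h44 = h4 * h4)
    (hok : allOk (mkOuter2 K x h1 t h2 h11 h12 h22 gs) = true)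
    (δ1 δ2 δ3 δ4 : ℝ)
    (h1' : |δ1| ≤ h1) (h2' : |δ2| ≤ h2) (h3' : |δ3| ≤ h3) (h4' : |δ4| ≤ h4) :
    |evalG gs ((x : ℝ) + δ1) ((t : ℝ) + δ2) ((q : ℝ) + δ3) ((s : ℝ) + δ4)
        - (innerAc q h3 s h4 h33 h34 h44 (mkOuter2 K x h1 t h2 h11 h12 h22 gs)).T K δ1 δ2 δ3 δ4|
      ≤ (innerAc q h3 s h4 h33 h34 h44 (mkOuter2 K x h1 t h2 h11 h12 h22 gs)).R := by
  induction gs with
  | nil =>
    have : innerAc q h3 s h4 h33 h34 h44 (mkOuter2 K x h1 t h2 h11 h12 h22 [])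
        = ⟨0, 0, 0, 0, 0, 0, 0, 0, 0, 0, 0, 0, 0, 0, 0, 0, 0, 0, 0, 0, 0, 0⟩ := rfl
    rw [this]
    simp [Ac.T]
  | cons g gs ih =>
    have hok' := allOk_cons _ _ hok
    have ih' := ih hok'.2
    set A := innerAc q h3 s h4 h33 h34 h44 (mkOuter2 K x h1 t h2 h11 h12 h22 gs) with hA
    set P := sumJ x h1 t h2 h11 h12 h22 g.pos with hP
    set N := sumJ x h1 t h2 h11 h12 h22 g.neg with hN
    set M := jet2 q h3 s h4 h33 h34 h44 g.n g.s with hM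
    set C := mkCO K x h1 t h2 h11 h12 h22 g with hC
    have eCn : C.n = g.n := rfl
    have eCs : C.s = g.s := rfl
    have hck : and (Nat.ble N.p K) (and (Nat.ble N.d1 K) (and (Nat.ble N.d2 K)
      (and (Nat.ble N.d11 K) (and (Nat.ble N.d12 K) (Nat.ble N.d22 K))))) = true := hok'.1
    simp only [Bool.and_eq_true] at hck
    obtain ⟨k1, k2, k3, k4, k5, k6⟩ := hck
    have b1 := Nat.le_of_ble_eq_true k1
    have b2 := Nat.le_of_ble_eq_true k2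
    have b3 := Nat.le_of_ble_eq_true k3
    have b4 := Nat.le_of_ble_eq_true k4
    have b5 := Nat.le_of_ble_eq_true k5
    have b6 := Nat.le_of_ble_eq_true k6
    have ev : ((C.v : ℕ) : ℝ) = (P.p : ℝ) + K - N.p := cast_off _ _ _ b1
    have eg1 : ((C.g1 : ℕ) : ℝ) = (P.d1 : ℝ) + K - N.d1 := cast_off _ _ _ b2
    have eg2 : ((C.g2 : ℕ) : ℝ) = (P.d2 : ℝ) + K - N.d2 := cast_off _ _ _ b3
    have eg11 : ((C.g11 : ℕ) : ℝ) = (P.d11 : ℝ) + K - N.d11 := cast_off _ _ _ b4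
    have eg12 : ((C.g12 : ℕ) : ℝ) = (P.d12 : ℝ) + K - N.d12 := cast_off _ _ _ b5
    have eg22 : ((C.g22 : ℕ) : ℝ) = (P.d22 : ℝ) + K - N.d22 := cast_off _ _ _ b6
    have hPok := sumJ_ok x h1 t h2 h11 h12 h22 e11 e12 e22 g.pos δ1 δ2 h1' h2'
    have hNok := sumJ_ok x h1 t h2 h11 h12 h22 e11 e12 e22 g.neg δ1 δ2 h1' h2'
    have hMok := jet2_ok q h3 s h4 h33 h34 h44 g.n g.s e33 e34 e44 δ3 δ4 h3' h4'
    set fv := evalTL g.pos ((x : ℝ) + δ1) ((t : ℝ) + δ2) - evalTL g.neg ((x : ℝ) + δ1) ((t : ℝ) + δ2) with hfv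
    set mv := ((q : ℝ) + δ3) ^ g.n * ((s : ℝ) + δ4) ^ g.s with hmv
    have hf : |fv - (((P.p : ℝ) - N.p) + ((P.d1 : ℝ) - N.d1) * δ1 + ((P.d2 : ℝ) - N.d2) * δ2
        + ((P.d11 : ℝ) - N.d11) * δ1 ^ 2 + ((P.d12 : ℝ) - N.d12) * (δ1 * δ2)
        + ((P.d22 : ℝ) - N.d22) * δ2 ^ 2)| ≤ ((P.e : ℝ) + N.e) := by
      have e0 : fv - (((P.p : ℝ) - N.p) + ((P.d1 : ℝ) - N.d1) * δ1 + ((P.d2 : ℝ) - N.d2) * δ2
        + ((P.d11 : ℝ) - N.d11) * δ1 ^ 2 + ((P.d12 : ℝ) - N.d12) * (δ1 * δ2)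
        + ((P.d22 : ℝ) - N.d22) * δ2 ^ 2)
        = (evalTL g.pos ((x : ℝ) + δ1) ((t : ℝ) + δ2) - P.T δ1 δ2)
          - (evalTL g.neg ((x : ℝ) + δ1) ((t : ℝ) + δ2) - N.T δ1 δ2) := by
        simp only [hfv, JS.T]; ring
      rw [e0]
      exact (abs_sub _ _).trans (add_le_add hPok hNok)
    have hu : |mv| ≤ (M.u : ℝ) := by
      have eu : (M.u : ℝ) = ((q : ℝ) + h3) ^ g.n * ((s : ℝ) + h4) ^ g.s := by
        show ((Nat.mul (Nat.pow (Nat.add q h3) g.n) (Nat.pow (Nat.add s h4) g.s) : ℕ) : ℝ) = _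
        simp
      rw [eu, hmv, abs_mul, abs_pow, abs_pow]
      have hq0 : (0 : ℝ) ≤ q := Nat.cast_nonneg _
      have hs0 : (0 : ℝ) ≤ s := Nat.cast_nonneg _
      have t1 : |(q : ℝ) + δ3| ≤ (q : ℝ) + h3 := by
        calc |(q : ℝ) + δ3| ≤ |(q : ℝ)| + |δ3| := abs_add_le _ _
          _ ≤ _ := by rw [abs_of_nonneg hq0]; linarith
      have t2 : |(s : ℝ) + δ4| ≤ (s : ℝ) + h4 := by
        calc |(s : ℝ) + δ4| ≤ |(s : ℝ)| + |δ4| := abs_add_le _ _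
          _ ≤ _ := by rw [abs_of_nonneg hs0]; linarith
      exact mul_le_mul (pow_le_pow_left₀ (abs_nonneg _) t1 _) (pow_le_pow_left₀ (abs_nonneg _) t2 _)
        (by positivity) (by positivity)
    have hstep := step_bound2 fv mv ((P.p : ℝ) - N.p) ((P.d1 : ℝ) - N.d1) ((P.d2 : ℝ) - N.d2)
      ((P.d11 : ℝ) - N.d11) ((P.d12 : ℝ) - N.d12) ((P.d22 : ℝ) - N.d22) ((P.e : ℝ) + N.e)
      M.p M.d1 M.d2 M.d11 M.d12 M.d22 M.e M.u δ1 δ2 δ3 δ4 h1 h2 h3 h4 hf hMok hu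
      (Nat.cast_nonneg _) (Nat.cast_nonneg _) (Nat.cast_nonneg _) (Nat.cast_nonneg _)
      (Nat.cast_nonneg _) h1' h2' h3' h4'
    simp only at hstep
    have eM_l : (M.l : ℝ) = (M.d1 : ℝ) * h3 + M.d2 * h4 := by
      show ((Nat.add (Nat.mul M.d1 h3) (Nat.mul M.d2 h4) : ℕ) : ℝ) = _
      simp
    have eM_q : (M.q : ℝ) = (M.d11 : ℝ) * (h3 * h3) + M.d12 * (h3 * h4) + M.d22 * (h4 * h4) := by
      show ((Nat.add (Nat.mul M.d11 h33) (Nat.add (Nat.mul M.d12 h34) (Nat.mul M.d22 h44)) : ℕ) : ℝ) = _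
      rw [e33, e34, e44]
      simp only [Nat.add_eq, Nat.mul_eq]
      push_cast
      ring
    have eCav : ((C.av : ℕ) : ℝ) = |(P.p : ℝ) - N.p| := cast_absDiff _ _
    have eCcl : ((C.cl : ℕ) : ℝ) = |(P.d1 : ℝ) - N.d1| * h1 + |(P.d2 : ℝ) - N.d2| * h2 := by
      show ((Nat.add (Nat.mul (absDiff P.d1 N.d1) h1) (Nat.mul (absDiff P.d2 N.d2) h2) : ℕ) : ℝ) = _
      simp only [Nat.add_eq, Nat.mul_eq]
      push_cast
      rw [cast_absDiff, cast_absDiff]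
    have eCcq : ((C.cq : ℕ) : ℝ) = |(P.d11 : ℝ) - N.d11| * (h1 * h1) + |(P.d12 : ℝ) - N.d12| * (h1 * h2)
        + |(P.d22 : ℝ) - N.d22| * (h2 * h2) := by
      show ((Nat.add (Nat.mul (absDiff P.d11 N.d11) h11)
        (Nat.add (Nat.mul (absDiff P.d12 N.d12) h12) (Nat.mul (absDiff P.d22 N.d22) h22)) : ℕ) : ℝ) = _
      simp only [Nat.add_eq, Nat.mul_eq]
      push_cast
      rw [cast_absDiff, cast_absDiff, cast_absDiff, e11, e12, e22]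
      push_cast
      ring
    have eCe : ((C.e : ℕ) : ℝ) = (P.e : ℝ) + N.e := by
      show ((Nat.add P.e N.e : ℕ) : ℝ) = _
      simp
    have e : innerAc q h3 s h4 h33 h34 h44 (mkOuter2 K x h1 t h2 h11 h12 h22 (g :: gs)) =
      ⟨C.v * M.p + A.Av, C.g1 * M.p + A.Ag1, C.g2 * M.p + A.Ag2, C.g11 * M.p + A.Ag11,
       C.g12 * M.p + A.Ag12, C.g22 * M.p + A.Ag22,
       C.v * M.d1 + A.Am1, C.v * M.d2 + A.Am2, C.v * M.d11 + A.Am11, C.v * M.d12 + A.Am12,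
       C.v * M.d22 + A.Am22, C.g1 * M.d1 + A.A13, C.g1 * M.d2 + A.A14, C.g2 * M.d1 + A.A23,
       C.g2 * M.d2 + A.A24, M.p + A.Sp, M.d1 + A.S1, M.d2 + A.S2, M.d11 + A.S11, M.d12 + A.S12,
       M.d22 + A.S22,
       (C.cl * M.q + C.cq * (M.l + M.q)) + ((C.e * M.u + (C.av + (C.cl + C.cq)) * M.e) + A.R)⟩ := rfl
    rw [e, evalG_cons]
    simp only [Ac.T] at ih' ⊢
    simp only [Nat.cast_add, Nat.cast_mul]
    rw [ev, eg1, eg2, eg11, eg12, eg22, eM_l, eM_q, eCav, eCcl, eCcq, eCe]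
    have hsplit := (abs_add_le _ _).trans (add_le_add hstep ih')
    refine le_trans (le_of_eq ?_) (hsplit.trans (le_of_eq ?_))
    · congr 1
      ring
    · ring

lemma leaf_bound2 (K x h1 t h2 h11 h12 h22 q h3 s h4 h33 h34 h44 : ℕ) (gs : List Gp)
    (e11 : h11 = h1 * h1) (e12 : h12 = h1 * h2) (e22 : h22 = h2 * h2)
    (e33 : h33 = h3 * h3) (e34 : h34 = h3 * h4) (e44 : h44 = h4 * h4)
    (hok : allOk (mkOuter2 K x h1 t h2 h11 h12 h22 gs) = true)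
    (hl : leafOK2 K h1 h2 h3 h4 h11 h12 h22 h33 h34 h44
      (innerAc q h3 s h4 h33 h34 h44 (mkOuter2 K x h1 t h2 h11 h12 h22 gs)) = true)
    (δ1 δ2 δ3 δ4 : ℝ)
    (h1' : |δ1| ≤ h1) (h2' : |δ2| ≤ h2) (h3' : |δ3| ≤ h3) (h4' : |δ4| ≤ h4) :
    evalG gs ((x : ℝ) + δ1) ((t : ℝ) + δ2) ((q : ℝ) + δ3) ((s : ℝ) + δ4) < 0 := by
  have hs := innerAc_spec K x h1 t h2 h11 h12 h22 q h3 s h4 h33 h34 h44 gs e11 e12 e22 e33 e34 e44 hok
    δ1 δ2 δ3 δ4 h1' h2' h3' h4'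
  set A := innerAc q h3 s h4 h33 h34 h44 (mkOuter2 K x h1 t h2 h11 h12 h22 gs) with hA
  have hlt : A.Av + (absDiff A.Ag1 (K * A.Sp) * h1 + (absDiff A.Ag2 (K * A.Sp) * h2
      + (absDiff A.Am1 (K * A.S1) * h3 + (absDiff A.Am2 (K * A.S2) * h4
      + (absDiff A.Ag11 (K * A.Sp) * h11 + (absDiff A.Ag12 (K * A.Sp) * h12
      + (absDiff A.Ag22 (K * A.Sp) * h22
      + (absDiff A.Am11 (K * A.S11) * h33 + (absDiff A.Am12 (K * A.S12) * h34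
      + (absDiff A.Am22 (K * A.S22) * h44
      + (absDiff A.A13 (K * A.S1) * (h1 * h3) + (absDiff A.A14 (K * A.S2) * (h1 * h4)
      + (absDiff A.A23 (K * A.S1) * (h2 * h3) + (absDiff A.A24 (K * A.S2) * (h2 * h4)
      + A.R)))))))))))))) < K * A.Sp := by
    have := Nat.le_of_ble_eq_true hl
    simpa [Nat.succ_le_iff] using this
  have hlt' : ((A.Av + (absDiff A.Ag1 (K * A.Sp) * h1 + (absDiff A.Ag2 (K * A.Sp) * h2
      + (absDiff A.Am1 (K * A.S1) * h3 + (absDiff A.Am2 (K * A.S2) * h4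
      + (absDiff A.Ag11 (K * A.Sp) * h11 + (absDiff A.Ag12 (K * A.Sp) * h12
      + (absDiff A.Ag22 (K * A.Sp) * h22
      + (absDiff A.Am11 (K * A.S11) * h33 + (absDiff A.Am12 (K * A.S12) * h34
      + (absDiff A.Am22 (K * A.S22) * h44
      + (absDiff A.A13 (K * A.S1) * (h1 * h3) + (absDiff A.A14 (K * A.S2) * (h1 * h4)
      + (absDiff A.A23 (K * A.S1) * (h2 * h3) + (absDiff A.A24 (K * A.S2) * (h2 * h4)
      + A.R)))))))))))))) : ℕ) : ℝ) < ((K * A.Sp : ℕ) : ℝ) := by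
    exact_mod_cast hlt
  push_cast at hlt'
  simp only [cast_absDiff] at hlt'
  push_cast at hlt'
  have hu := (abs_le.mp hs).2
  simp only [Ac.T] at hu
  have ble : ∀ (c d H : ℝ), |d| ≤ H → c * d ≤ |c| * H := by
    intro c d H hd
    calc c * d ≤ |c * d| := le_abs_self _
      _ = |c| * |d| := abs_mul _ _
      _ ≤ _ := mul_le_mul_of_nonneg_left hd (abs_nonneg _)
  have pr : ∀ (a b A' B' : ℝ), |a| ≤ A' → |b| ≤ B' → |a * b| ≤ A' * B' := by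
    intro a b A' B' ha hb
    rw [abs_mul]
    exact mul_le_mul ha hb (abs_nonneg _) ((abs_nonneg _).trans ha)
  have sq' : ∀ (a A' : ℝ), |a| ≤ A' → |a ^ 2| ≤ A' * A' := by
    intro a A' ha
    rw [sq]; exact pr a a A' A' ha ha
  have c11 : ((h11 : ℕ) : ℝ) = (h1 : ℝ) * h1 := by rw [e11]; push_cast; ring
  have c12 : ((h12 : ℕ) : ℝ) = (h1 : ℝ) * h2 := by rw [e12]; push_cast; ring
  have c22 : ((h22 : ℕ) : ℝ) = (h2 : ℝ) * h2 := by rw [e22]; push_cast; ring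
  have c33 : ((h33 : ℕ) : ℝ) = (h3 : ℝ) * h3 := by rw [e33]; push_cast; ring
  have c34 : ((h34 : ℕ) : ℝ) = (h3 : ℝ) * h4 := by rw [e34]; push_cast; ring
  have c44 : ((h44 : ℕ) : ℝ) = (h4 : ℝ) * h4 := by rw [e44]; push_cast; ring
  rw [c11, c12, c22, c33, c34, c44] at hlt'
  have t1 := ble ((A.Ag1 : ℝ) - K * A.Sp) δ1 _ h1'
  have t2 := ble ((A.Ag2 : ℝ) - K * A.Sp) δ2 _ h2'
  have t3 := ble ((A.Am1 : ℝ) - K * A.S1) δ3 _ h3'
  have t4 := ble ((A.Am2 : ℝ) - K * A.S2) δ4 _ h4'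
  have t5 := ble ((A.Ag11 : ℝ) - K * A.Sp) (δ1 ^ 2) _ (sq' _ _ h1')
  have t6 := ble ((A.Ag12 : ℝ) - K * A.Sp) (δ1 * δ2) _ (pr _ _ _ _ h1' h2')
  have t7 := ble ((A.Ag22 : ℝ) - K * A.Sp) (δ2 ^ 2) _ (sq' _ _ h2')
  have t8 := ble ((A.Am11 : ℝ) - K * A.S11) (δ3 ^ 2) _ (sq' _ _ h3')
  have t9 := ble ((A.Am12 : ℝ) - K * A.S12) (δ3 * δ4) _ (pr _ _ _ _ h3' h4')
  have t10 := ble ((A.Am22 : ℝ) - K * A.S22) (δ4 ^ 2) _ (sq' _ _ h4')
  have t11 := ble ((A.A13 : ℝ) - K * A.S1) (δ1 * δ3) _ (pr _ _ _ _ h1' h3')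
  have t12 := ble ((A.A14 : ℝ) - K * A.S2) (δ1 * δ4) _ (pr _ _ _ _ h1' h4')
  have t13 := ble ((A.A23 : ℝ) - K * A.S1) (δ2 * δ3) _ (pr _ _ _ _ h2' h3')
  have t14 := ble ((A.A24 : ℝ) - K * A.S2) (δ2 * δ4) _ (pr _ _ _ _ h2' h4')
  linarith

/-! ### The corner -/

/-- Check of the corner: the leading form in `X^2, Q^2` is negative and dominates the rest. -/
noncomputable def cornerQ (xb tb qb sb : ℕ) (l : List FT) : Bool :=
  let s1 := l.filter fun f => Nat.ble 4 f.a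
  let r1 := l.filter fun f => !(Nat.ble 4 f.a)
  let s2 := r1.filter fun f => Nat.ble 2 f.a && Nat.ble 2 f.n
  let r2 := r1.filter fun f => !(Nat.ble 2 f.a && Nat.ble 2 f.n)
  let s3 := r2.filter fun f => Nat.ble 4 f.n
  let r3 := r2.filter fun f => !(Nat.ble 4 f.n)
  let p1 := cornerPos 4 0 xb tb qb sb s1
  let n1 := cornerNeg 4 0 s1
  let p2 := cornerPos 2 2 xb tb qb sb s2
  let n2 := cornerNeg 2 2 s2
  let p3 := cornerPos 0 4 xb tb qb sb s3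
  let n3 := cornerNeg 0 4 s3
  (r3.all fun f => !f.sg) && Nat.ble p1 n1 && Nat.ble p3 n3 &&
    (Nat.ble p2 n2 || Nat.ble ((p2 - n2) * (p2 - n2)) (4 * (n1 - p1) * (n3 - p3)))

lemma evalFlat_neg (l : List FT) (h : (l.all fun f => !f.sg) = true) (X T Q S : ℝ)
    (hX0 : 0 ≤ X) (hT0 : 0 ≤ T) (hQ0 : 0 ≤ Q) (hS0 : 0 ≤ S) : evalFlat l X T Q S ≤ 0 := by
  induction l with
  | nil => simp [evalFlat]
  | cons f l ih =>
    have hall : (!f.sg) = true ∧ (l.all fun f => !f.sg) = true := by simpa using h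
    have h0 : evalFlat (f :: l) X T Q S = f.val X T Q S + evalFlat l X T Q S := by simp [evalFlat]
    have hs : f.sg = false := by simpa using hall.1
    have hv : f.val X T Q S ≤ 0 := by
      unfold FT.val
      simp only [hs, Bool.false_eq_true, if_false]
      have : 0 ≤ (f.c : ℝ) * X ^ f.a * T ^ f.b * Q ^ f.n * S ^ f.s := by positivity
      have e : -(f.c : ℝ) * X ^ f.a * T ^ f.b * Q ^ f.n * S ^ f.s
          = -((f.c : ℝ) * X ^ f.a * T ^ f.b * Q ^ f.n * S ^ f.s) := by ring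
      rw [e]; linarith
    rw [h0]
    have := ih hall.2
    linarith

lemma cornerQ_spec (xb tb qb sb : ℕ) (l : List FT) (hc : cornerQ xb tb qb sb l = true)
    (X T Q S : ℝ) (hX0 : 0 ≤ X) (hT0 : 0 ≤ T) (hQ0 : 0 ≤ Q) (hS0 : 0 ≤ S)
    (hX : X ≤ xb) (hT : T ≤ tb) (hQ : Q ≤ qb) (hS : S ≤ sb) :
    evalFlat l X T Q S ≤ 0 := by
  simp only [cornerQ, Bool.and_eq_true, Bool.or_eq_true] at hc
  obtain ⟨⟨⟨hr, h1⟩, h3⟩, h2⟩ := hc
  set s1 := l.filter fun f => Nat.ble 4 f.a with hs1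
  set r1 := l.filter fun f => !(Nat.ble 4 f.a) with hr1
  set s2 := r1.filter fun f => Nat.ble 2 f.a && Nat.ble 2 f.n with hs2
  set r2 := r1.filter fun f => !(Nat.ble 2 f.a && Nat.ble 2 f.n) with hr2
  set s3 := r2.filter fun f => Nat.ble 4 f.n with hs3
  set r3 := r2.filter fun f => !(Nat.ble 4 f.n) with hr3
  have d1 := evalFlat_filter (fun f => Nat.ble 4 f.a) l X T Q S
  have d2 := evalFlat_filter (fun f => Nat.ble 2 f.a && Nat.ble 2 f.n) r1 X T Q S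
  have d3 := evalFlat_filter (fun f => Nat.ble 4 f.n) r2 X T Q S
  have b1 := corner_sel 4 0 xb tb qb sb s1
    (by
      intro f hf
      have := (List.mem_filter.mp hf).2
      exact ⟨Nat.le_of_ble_eq_true this, Nat.zero_le _⟩)
    X T Q S hX0 hT0 hQ0 hS0 hX hT hQ hS
  have b2 := corner_sel 2 2 xb tb qb sb s2
    (by
      intro f hf
      have := (List.mem_filter.mp hf).2
      simp only [Bool.and_eq_true] at this
      exact ⟨Nat.le_of_ble_eq_true this.1, Nat.le_of_ble_eq_true this.2⟩)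
    X T Q S hX0 hT0 hQ0 hS0 hX hT hQ hS
  have b3 := corner_sel 0 4 xb tb qb sb s3
    (by
      intro f hf
      have := (List.mem_filter.mp hf).2
      exact ⟨Nat.zero_le _, Nat.le_of_ble_eq_true this⟩)
    X T Q S hX0 hT0 hQ0 hS0 hX hT hQ hS
  have b4 := evalFlat_neg r3 hr X T Q S hX0 hT0 hQ0 hS0
  set p1 := cornerPos 4 0 xb tb qb sb s1
  set n1 := cornerNeg 4 0 s1
  set p2 := cornerPos 2 2 xb tb qb sb s2
  set n2 := cornerNeg 2 2 s2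
  set p3 := cornerPos 0 4 xb tb qb sb s3
  set n3 := cornerNeg 0 4 s3
  have l1 : p1 ≤ n1 := Nat.le_of_ble_eq_true h1
  have l3 : p3 ≤ n3 := Nat.le_of_ble_eq_true h3
  have l1' : (p1 : ℝ) ≤ n1 := by exact_mod_cast l1
  have l3' : (p3 : ℝ) ≤ n3 := by exact_mod_cast l3
  set u := X ^ 2 with hu
  set v := Q ^ 2 with hv
  have hu0 : 0 ≤ u := by positivity
  have hv0 : 0 ≤ v := by positivity
  have e1 : X ^ 4 * Q ^ 0 = u ^ 2 := by rw [hu]; ring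
  have e2 : X ^ 2 * Q ^ 2 = u * v := by rw [hu, hv]
  have e3 : X ^ 0 * Q ^ 4 = v ^ 2 := by rw [hv]; ring
  rw [e1] at b1
  rw [e2] at b2
  rw [e3] at b3
  set a : ℝ := (n1 : ℝ) - p1 with ha
  set c : ℝ := (n3 : ℝ) - p3 with hc
  set b : ℝ := (p2 : ℝ) - n2 with hb
  have ha0 : 0 ≤ a := by rw [ha]; linarith
  have hc0 : 0 ≤ c := by rw [hc]; linarith
  have key : b * (u * v) ≤ a * u ^ 2 + c * v ^ 2 := by
    rcases h2 with h2 | h2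
    · have : (p2 : ℝ) ≤ n2 := by exact_mod_cast Nat.le_of_ble_eq_true h2
      have hb0 : b ≤ 0 := by rw [hb]; linarith
      have : b * (u * v) ≤ 0 := mul_nonpos_of_nonpos_of_nonneg hb0 (by positivity)
      have : 0 ≤ a * u ^ 2 + c * v ^ 2 := by positivity
      linarith
    · have hq := Nat.le_of_ble_eq_true h2
      rcases le_total p2 n2 with hle | hle
      · have : (p2 : ℝ) ≤ n2 := by exact_mod_cast hle
        have hb0 : b ≤ 0 := by rw [hb]; linarith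
        have : b * (u * v) ≤ 0 := mul_nonpos_of_nonpos_of_nonneg hb0 (by positivity)
        have : 0 ≤ a * u ^ 2 + c * v ^ 2 := by positivity
        linarith
      · have hq' : b * b ≤ 4 * a * c := by
          have h4 : (((p2 - n2) * (p2 - n2) : ℕ) : ℝ) ≤ ((4 * (n1 - p1) * (n3 - p3) : ℕ) : ℝ) := by
            exact_mod_cast hq
          push_cast [Nat.cast_sub hle, Nat.cast_sub l1, Nat.cast_sub l3] at h4
          exact h4
        by_cases ha1 : a = 0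
        · have hb0 : b = 0 := by
            rw [ha1] at hq'
            nlinarith [mul_self_nonneg b]
          rw [hb0, ha1]
          simp
          positivity
        · have ha2 : 0 < a := lt_of_le_of_ne ha0 (Ne.symm ha1)
          have : 0 ≤ 4 * a * (a * u ^ 2 + c * v ^ 2 - b * (u * v)) := by
            have e : 4 * a * (a * u ^ 2 + c * v ^ 2 - b * (u * v))
                = (2 * a * u - b * v) ^ 2 + (4 * a * c - b * b) * v ^ 2 := by ring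
            rw [e]
            have : 0 ≤ (4 * a * c - b * b) * v ^ 2 := mul_nonneg (by linarith) (by positivity)
            positivity
          have h5 : 0 ≤ a * u ^ 2 + c * v ^ 2 - b * (u * v) := by
            by_contra hn
            rw [not_le] at hn
            have := mul_neg_of_pos_of_neg (by positivity : 0 < 4 * a) hn
            linarith
          linarith
  have b1' : evalFlat s1 X T Q S ≤ -(a * u ^ 2) := by
    refine b1.trans (le_of_eq ?_)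
    rw [ha]; ring
  have b2' : evalFlat s2 X T Q S ≤ b * (u * v) := by
    refine b2.trans (le_of_eq ?_)
    rw [hb]; ring
  have b3' : evalFlat s3 X T Q S ≤ -(c * v ^ 2) := by
    refine b3.trans (le_of_eq ?_)
    rw [hc]; ring
  linarith

/-! ### The tree check -/

/-- Inner check. -/
noncomputable def chkIn2 (P : Pb) (K x0 h1 t0 h2 h11 h12 h22 : ℕ) (C : List CO) (t : InT) :
    ℕ → ℕ → ℕ → ℕ → Bool :=
  InT.rec (motive := fun _ => ℕ → ℕ → ℕ → ℕ → Bool)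
    (fun q0 h3 s0 h4 =>
      let h33 := Nat.mul h3 h3
      let h34 := Nat.mul h3 h4
      let h44 := Nat.mul h4 h4
      leafOK2 K h1 h2 h3 h4 h11 h12 h22 h33 h34 h44
        (innerAc (Nat.add q0 h3) h3 (Nat.add s0 h4) h4 h33 h34 h44 C))
    (fun q0 h3 s0 h4 => conNeg q0 h3 s0 h4 P.conI)
    (fun q0 h3 s0 h4 => cornerQ (Nat.add x0 (Nat.add h1 h1)) (Nat.add t0 (Nat.add h2 h2))
      (Nat.add q0 (Nat.add h3 h3)) (Nat.add s0 (Nat.add h4 h4)) (toFlat P.gs))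
    (fun _ _ ihL ihR q0 h3 s0 h4 =>
      let h := Nat.div h3 2
      and (Nat.beq (Nat.add h h) h3) (and (ihL q0 h s0 h4) (ihR (Nat.add q0 h3) h s0 h4)))
    (fun _ _ ihL ihR q0 h3 s0 h4 =>
      let h := Nat.div h4 2
      and (Nat.beq (Nat.add h h) h4) (and (ihL q0 h3 s0 h) (ihR q0 h3 (Nat.add s0 h4) h)))
    t

/-- Outer check. -/
noncomputable def chkOut2 (P : Pb) (K : ℕ) (t : OutT) : ℕ → ℕ → ℕ → ℕ → Bool :=
  OutT.rec (motive := fun _ => ℕ → ℕ → ℕ → ℕ → Bool)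
    (fun x0 h1 t0 h2 => conNeg x0 h1 t0 h2 P.conO)
    (fun t x0 h1 t0 h2 =>
      let h11 := Nat.mul h1 h1
      let h12 := Nat.mul h1 h2
      let h22 := Nat.mul h2 h2
      let C := mkOuter2 K (Nat.add x0 h1) h1 (Nat.add t0 h2) h2 h11 h12 h22 P.gs
      and (allOk C) (chkIn2 P K x0 h1 t0 h2 h11 h12 h22 C t 0 P.W 0 P.W))
    (fun _ _ ihL ihR x0 h1 t0 h2 =>
      let h := Nat.div h1 2
      and (Nat.beq (Nat.add h h) h1) (and (ihL x0 h t0 h2) (ihR (Nat.add x0 h1) h t0 h2)))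
    (fun _ _ ihL ihR x0 h1 t0 h2 =>
      let h := Nat.div h2 2
      and (Nat.beq (Nat.add h h) h2) (and (ihL x0 h1 t0 h) (ihR x0 h1 (Nat.add t0 h2) h)))
    t

lemma chkIn2_sound (P : Pb) (K x0 h1 t0 h2 : ℕ) (hok : allOk (mkOuter2 K (x0 + h1) h1 (t0 + h2) h2
      (h1 * h1) (h1 * h2) (h2 * h2) P.gs) = true) (t : InT) (q0 h3 s0 h4 : ℕ)
    (hc : chkIn2 P K x0 h1 t0 h2 (h1 * h1) (h1 * h2) (h2 * h2)
      (mkOuter2 K (x0 + h1) h1 (t0 + h2) h2 (h1 * h1) (h1 * h2) (h2 * h2) P.gs) t q0 h3 s0 h4 = true)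
    (X T Q S : ℝ) (hX0 : (x0 : ℝ) ≤ X) (hX1 : X ≤ x0 + 2 * h1)
    (hT0 : (t0 : ℝ) ≤ T) (hT1 : T ≤ t0 + 2 * h2)
    (hQ0 : (q0 : ℝ) ≤ Q) (hQ1 : Q ≤ q0 + 2 * h3) (hS0 : (s0 : ℝ) ≤ S) (hS1 : S ≤ s0 + 2 * h4)
    (hcon : 0 ≤ evalTL P.conI.1 Q S - evalTL P.conI.2 Q S) :
    evalG P.gs X T Q S ≤ 0 := by
  induction t generalizing q0 h3 s0 h4 with
  | l =>
    have hl : leafOK2 K h1 h2 h3 h4 (h1 * h1) (h1 * h2) (h2 * h2) (h3 * h3) (h3 * h4) (h4 * h4)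
        (innerAc (q0 + h3) h3 (s0 + h4) h4 (h3 * h3) (h3 * h4) (h4 * h4)
          (mkOuter2 K (x0 + h1) h1 (t0 + h2) h2 (h1 * h1) (h1 * h2) (h2 * h2) P.gs)) = true := hc
    have := leaf_bound2 K (x0 + h1) h1 (t0 + h2) h2 (h1 * h1) (h1 * h2) (h2 * h2) (q0 + h3) h3 (s0 + h4) h4
      (h3 * h3) (h3 * h4) (h4 * h4) P.gs rfl rfl rfl rfl rfl rfl hok hl
      (X - ((x0 + h1 : ℕ) : ℝ)) (T - ((t0 + h2 : ℕ) : ℝ)) (Q - ((q0 + h3 : ℕ) : ℝ)) (S - ((s0 + h4 : ℕ) : ℝ))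
      (by rw [abs_le]; push_cast; constructor <;> linarith)
      (by rw [abs_le]; push_cast; constructor <;> linarith)
      (by rw [abs_le]; push_cast; constructor <;> linarith)
      (by rw [abs_le]; push_cast; constructor <;> linarith)
    simp only [add_sub_cancel] at this
    exact this.le
  | k =>
    have hn : conNeg q0 h3 s0 h4 P.conI = true := hc
    have := conNeg_spec q0 h3 s0 h4 P.conI hn Q S hQ0 hQ1 hS0 hS1
    linarith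
  | z =>
    have hz : cornerQ (x0 + (h1 + h1)) (t0 + (h2 + h2)) (q0 + (h3 + h3)) (s0 + (h4 + h4))
        (toFlat P.gs) = true := hc
    have hx0 : (0 : ℝ) ≤ x0 := Nat.cast_nonneg _
    have ht0 : (0 : ℝ) ≤ t0 := Nat.cast_nonneg _
    have hq0 : (0 : ℝ) ≤ q0 := Nat.cast_nonneg _
    have hs0 : (0 : ℝ) ≤ s0 := Nat.cast_nonneg _
    have := cornerQ_spec _ _ _ _ _ hz X T Q S (by linarith) (by linarith) (by linarith) (by linarith)
      (by push_cast; linarith) (by push_cast; linarith) (by push_cast; linarith) (by push_cast; linarith)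
    rwa [evalFlat_toFlat] at this
  | c L R ihL ihR =>
    have hc' : and (Nat.beq (Nat.add (Nat.div h3 2) (Nat.div h3 2)) h3)
        (and (chkIn2 P K x0 h1 t0 h2 (h1 * h1) (h1 * h2) (h2 * h2) (mkOuter2 K (x0 + h1) h1 (t0 + h2) h2 (h1 * h1) (h1 * h2) (h2 * h2) P.gs) L q0 (Nat.div h3 2) s0 h4)
          (chkIn2 P K x0 h1 t0 h2 (h1 * h1) (h1 * h2) (h2 * h2) (mkOuter2 K (x0 + h1) h1 (t0 + h2) h2 (h1 * h1) (h1 * h2) (h2 * h2) P.gs) R (Nat.add q0 h3) (Nat.div h3 2) s0 h4)) = true := hc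
    simp only [Bool.and_eq_true] at hc'
    obtain ⟨h0, hL, hR⟩ := hc'
    have he : (Nat.div h3 2) + (Nat.div h3 2) = h3 := Nat.eq_of_beq_eq_true h0
    have he' : ((Nat.div h3 2 : ℕ) : ℝ) + ((Nat.div h3 2 : ℕ) : ℝ) = h3 := by exact_mod_cast he
    rcases le_total Q ((q0 : ℝ) + h3) with hq | hq
    · exact ihL _ _ _ _ hL hQ0 (by linarith) hS0 hS1
    · exact ihR _ _ _ _ hR (by simpa using hq) (by
        have : ((Nat.add q0 h3 : ℕ) : ℝ) = (q0 : ℝ) + h3 := by simp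
        rw [this]; linarith) hS0 hS1
  | d L R ihL ihR =>
    have hc' : and (Nat.beq (Nat.add (Nat.div h4 2) (Nat.div h4 2)) h4)
        (and (chkIn2 P K x0 h1 t0 h2 (h1 * h1) (h1 * h2) (h2 * h2) (mkOuter2 K (x0 + h1) h1 (t0 + h2) h2 (h1 * h1) (h1 * h2) (h2 * h2) P.gs) L q0 h3 s0 (Nat.div h4 2))
          (chkIn2 P K x0 h1 t0 h2 (h1 * h1) (h1 * h2) (h2 * h2) (mkOuter2 K (x0 + h1) h1 (t0 + h2) h2 (h1 * h1) (h1 * h2) (h2 * h2) P.gs) R q0 h3 (Nat.add s0 h4) (Nat.div h4 2))) = true := hc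
    simp only [Bool.and_eq_true] at hc'
    obtain ⟨h0, hL, hR⟩ := hc'
    have he : (Nat.div h4 2) + (Nat.div h4 2) = h4 := Nat.eq_of_beq_eq_true h0
    have he' : ((Nat.div h4 2 : ℕ) : ℝ) + ((Nat.div h4 2 : ℕ) : ℝ) = h4 := by exact_mod_cast he
    rcases le_total S ((s0 : ℝ) + h4) with hs | hs
    · exact ihL _ _ _ _ hL hQ0 hQ1 hS0 (by linarith)
    · exact ihR _ _ _ _ hR hQ0 hQ1 (by simpa using hs) (by
        have : ((Nat.add s0 h4 : ℕ) : ℝ) = (s0 : ℝ) + h4 := by simp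
        rw [this]; linarith)

lemma chkOut2_sound (P : Pb) (K : ℕ) (t : OutT) (x0 h1 t0 h2 : ℕ)
    (hc : chkOut2 P K t x0 h1 t0 h2 = true) : Sound P x0 h1 t0 h2 := by
  induction t generalizing x0 h1 t0 h2 with
  | s =>
    intro X T Q S hX0 hX1 hT0 hT1 _ _ _ _ hcO _
    have hn : conNeg x0 h1 t0 h2 P.conO = true := hc
    have := conNeg_spec x0 h1 t0 h2 P.conO hn X T hX0 hX1 hT0 hT1
    linarith
  | O t =>
    intro X T Q S hX0 hX1 hT0 hT1 hQ0 hQ1 hS0 hS1 _ hcI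
    have hi : and (allOk (mkOuter2 K (x0 + h1) h1 (t0 + h2) h2 (h1 * h1) (h1 * h2) (h2 * h2) P.gs))
        (chkIn2 P K x0 h1 t0 h2 (h1 * h1) (h1 * h2) (h2 * h2)
          (mkOuter2 K (x0 + h1) h1 (t0 + h2) h2 (h1 * h1) (h1 * h2) (h2 * h2) P.gs) t 0 P.W 0 P.W) = true := hc
    simp only [Bool.and_eq_true] at hi
    exact chkIn2_sound P K x0 h1 t0 h2 hi.1 t 0 P.W 0 P.W hi.2 X T Q S hX0 hX1 hT0 hT1
      (by simpa using hQ0) (by simpa using hQ1) (by simpa using hS0) (by simpa using hS1) hcI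
  | A L R ihL ihR =>
    have hc' : and (Nat.beq (Nat.add (Nat.div h1 2) (Nat.div h1 2)) h1)
        (and (chkOut2 P K L x0 (Nat.div h1 2) t0 h2) (chkOut2 P K R (Nat.add x0 h1) (Nat.div h1 2) t0 h2)) = true := hc
    simp only [Bool.and_eq_true] at hc'
    obtain ⟨h0, hL, hR⟩ := hc'
    have he : (Nat.div h1 2) + (Nat.div h1 2) = h1 := Nat.eq_of_beq_eq_true h0
    exact sound_splitA P x0 _ h1 t0 h2 he (ihL _ _ _ _ hL) (ihR _ _ _ _ hR)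
  | B L R ihL ihR =>
    have hc' : and (Nat.beq (Nat.add (Nat.div h2 2) (Nat.div h2 2)) h2)
        (and (chkOut2 P K L x0 h1 t0 (Nat.div h2 2)) (chkOut2 P K R x0 h1 (Nat.add t0 h2) (Nat.div h2 2))) = true := hc
    simp only [Bool.and_eq_true] at hc'
    obtain ⟨h0, hL, hR⟩ := hc'
    have he : (Nat.div h2 2) + (Nat.div h2 2) = h2 := Nat.eq_of_beq_eq_true h0
    exact sound_splitB P x0 h1 t0 _ h2 he (ihL _ _ _ _ hL) (ihR _ _ _ _ hR)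

end Vale.Agent.P154.Cert
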