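import Vale.Agent.P154.Atoms

/-!
Expansion of the two-point potential in powers of `v = 1 / (1 + u)`.
-/

open Finset

namespace Vale.Agent.P154

open PolyR

/-! ### The coefficient functions -/

noncomputable def A01 (z t : Fin 3 → ℝ) : ℝ := al2 z t
noncomputable def A11 (z t : Fin 3 → ℝ) : ℝ := 4 * al1 z t ^ 2 + 2 * s2 z * al2 z t
noncomputable def A21 (z t : Fin 3 → ℝ) : ℝ :=
  3 * s2 z * be2 z t + 6 * al1 z t * be1 z t + s3 z * al2 z t
noncomputable def A31 (z t : Fin 3 → ℝ) : ℝ := 9 * be1 z t ^ 2 + 6 * s3 z * be2 z t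
noncomputable def A12 (z t : Fin 3 → ℝ) : ℝ := 4 * al1 z t * al2 z t
noncomputable def A22 (z t : Fin 3 → ℝ) : ℝ :=
  s2 z * be3 z t + 6 * al1 z t * be2 z t + 3 * al2 z t * be1 z t
noncomputable def A32 (z t : Fin 3 → ℝ) : ℝ := 2 * s3 z * be3 z t + 18 * be1 z t * be2 z t
noncomputable def A13 (z t : Fin 3 → ℝ) : ℝ := al2 z t ^ 2
noncomputable def A23 (z t : Fin 3 → ℝ) : ℝ := 2 * al1 z t * be3 z t + 3 * al2 z t * be2 z t
noncomputable def A33 (z t : Fin 3 → ℝ) : ℝ := 9 * be2 z t ^ 2 + 6 * be1 z t * be3 z t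
noncomputable def A24 (z t : Fin 3 → ℝ) : ℝ := al2 z t * be3 z t
noncomputable def A34 (z t : Fin 3 → ℝ) : ℝ := 6 * be2 z t * be3 z t
noncomputable def A35 (z t : Fin 3 → ℝ) : ℝ := be3 z t ^ 2

noncomputable def N01 : Poly := pal2
noncomputable def N11 : Poly := add (smul 4 (mul pal1 pal1)) (smul 2 (mul pa pal2))
noncomputable def N21 : Poly :=
  add (add (smul 3 (mul pa pbe2)) (smul 6 (mul pal1 pbe1))) (mul pb pal2)
noncomputable def N31 : Poly := add (smul 9 (mul pbe1 pbe1)) (smul 6 (mul pb pbe2))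
noncomputable def N12 : Poly := smul 4 (mul pal1 pal2)
noncomputable def N22 : Poly :=
  add (add (mul pa pbe3) (smul 6 (mul pal1 pbe2))) (smul 3 (mul pal2 pbe1))
noncomputable def N32 : Poly := add (smul 2 (mul pb pbe3)) (smul 18 (mul pbe1 pbe2))
noncomputable def N13 : Poly := mul pal2 pal2
noncomputable def N23 : Poly := add (smul 2 (mul pal1 pbe3)) (smul 3 (mul pal2 pbe2))
noncomputable def N33 : Poly := add (smul 9 (mul pbe2 pbe2)) (smul 6 (mul pbe1 pbe3))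
noncomputable def N24 : Poly := mul pal2 pbe3
noncomputable def N34 : Poly := smul 6 (mul pbe2 pbe3)
noncomputable def N35 : Poly := mul pbe3 pbe3

section evs
variable (z t : Fin 3 → ℝ) (hz : ∑ i, z i = 0) (ht : ∑ i, t i = 0)
include hz ht

lemma ev_N01 : ev N01 (z 0) (z 1) (t 0) (t 1) = 9 * A01 z t := by
  simp only [N01, A01, ev_pal2 z t hz ht]

lemma ev_N11 : ev N11 (z 0) (z 1) (t 0) (t 1) = 9 * A11 z t := by
  simp only [N11, A11, ev_add, ev_smul, ev_mul, ev_pal1 z t hz ht, ev_pal2 z t hz ht, ev_pa z t hz ht]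
  push_cast; ring

lemma ev_N21 : ev N21 (z 0) (z 1) (t 0) (t 1) = 9 * A21 z t := by
  simp only [N21, A21, ev_add, ev_smul, ev_mul, ev_pal1 z t hz ht, ev_pal2 z t hz ht, ev_pa z t hz ht,
    ev_pb z t hz ht, ev_pbe1 z t hz ht, ev_pbe2 z t hz ht]
  push_cast; ring

lemma ev_N31 : ev N31 (z 0) (z 1) (t 0) (t 1) = 9 * A31 z t := by
  simp only [N31, A31, ev_add, ev_smul, ev_mul, ev_pb z t hz ht, ev_pbe1 z t hz ht, ev_pbe2 z t hz ht]
  push_cast; ring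

lemma ev_N12 : ev N12 (z 0) (z 1) (t 0) (t 1) = 27 * A12 z t := by
  simp only [N12, A12, ev_smul, ev_mul, ev_pal1 z t hz ht, ev_pal2 z t hz ht]
  push_cast; ring

lemma ev_N22 : ev N22 (z 0) (z 1) (t 0) (t 1) = 27 * A22 z t := by
  simp only [N22, A22, ev_add, ev_smul, ev_mul, ev_pal1 z t hz ht, ev_pal2 z t hz ht, ev_pa z t hz ht,
    ev_pbe1 z t hz ht, ev_pbe2 z t hz ht, ev_pbe3 z t hz ht]
  push_cast; ring

lemma ev_N32 : ev N32 (z 0) (z 1) (t 0) (t 1) = 27 * A32 z t := by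
  simp only [N32, A32, ev_add, ev_smul, ev_mul, ev_pb z t hz ht, ev_pbe1 z t hz ht, ev_pbe2 z t hz ht,
    ev_pbe3 z t hz ht]
  push_cast; ring

lemma ev_N13 : ev N13 (z 0) (z 1) (t 0) (t 1) = 81 * A13 z t := by
  simp only [N13, A13, ev_mul, ev_pal2 z t hz ht]
  ring

lemma ev_N23 : ev N23 (z 0) (z 1) (t 0) (t 1) = 81 * A23 z t := by
  simp only [N23, A23, ev_add, ev_smul, ev_mul, ev_pal1 z t hz ht, ev_pal2 z t hz ht,
    ev_pbe2 z t hz ht, ev_pbe3 z t hz ht]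
  push_cast; ring

lemma ev_N33 : ev N33 (z 0) (z 1) (t 0) (t 1) = 81 * A33 z t := by
  simp only [N33, A33, ev_add, ev_smul, ev_mul, ev_pbe1 z t hz ht, ev_pbe2 z t hz ht, ev_pbe3 z t hz ht]
  push_cast; ring

lemma ev_N24 : ev N24 (z 0) (z 1) (t 0) (t 1) = 243 * A24 z t := by
  simp only [N24, A24, ev_mul, ev_pal2 z t hz ht, ev_pbe3 z t hz ht]
  ring

lemma ev_N34 : ev N34 (z 0) (z 1) (t 0) (t 1) = 243 * A34 z t := by
  simp only [N34, A34, ev_smul, ev_mul, ev_pbe2 z t hz ht, ev_pbe3 z t hz ht]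
  push_cast; ring

lemma ev_N35 : ev N35 (z 0) (z 1) (t 0) (t 1) = 729 * A35 z t := by
  simp only [N35, A35, ev_mul, ev_pbe3 z t hz ht]
  ring

end evs

section invs
variable (z t : Fin 3 → ℝ) (h : Equiv.Perm (Fin 3))

lemma inv_A01 : A01 (z ∘ h) (t ∘ h) = A01 z t := by simp only [A01, al2_perm]
lemma inv_A11 : A11 (z ∘ h) (t ∘ h) = A11 z t := by simp only [A11, al1_perm, al2_perm, s2_perm]
lemma inv_A21 : A21 (z ∘ h) (t ∘ h) = A21 z t := by
  simp only [A21, al1_perm, al2_perm, be1_perm, be2_perm, s2_perm, s3_perm]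
lemma inv_A31 : A31 (z ∘ h) (t ∘ h) = A31 z t := by simp only [A31, be1_perm, be2_perm, s3_perm]
lemma inv_A12 : A12 (z ∘ h) (t ∘ h) = A12 z t := by simp only [A12, al1_perm, al2_perm]
lemma inv_A22 : A22 (z ∘ h) (t ∘ h) = A22 z t := by
  simp only [A22, al1_perm, al2_perm, be1_perm, be2_perm, be3_perm, s2_perm]
lemma inv_A32 : A32 (z ∘ h) (t ∘ h) = A32 z t := by
  simp only [A32, be1_perm, be2_perm, be3_perm, s3_perm]
lemma inv_A13 : A13 (z ∘ h) (t ∘ h) = A13 z t := by simp only [A13, al2_perm]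
lemma inv_A23 : A23 (z ∘ h) (t ∘ h) = A23 z t := by
  simp only [A23, al1_perm, al2_perm, be2_perm, be3_perm]
lemma inv_A33 : A33 (z ∘ h) (t ∘ h) = A33 z t := by simp only [A33, be1_perm, be2_perm, be3_perm]
lemma inv_A24 : A24 (z ∘ h) (t ∘ h) = A24 z t := by simp only [A24, al2_perm, be3_perm]
lemma inv_A34 : A34 (z ∘ h) (t ∘ h) = A34 z t := by simp only [A34, be2_perm, be3_perm]
lemma inv_A35 : A35 (z ∘ h) (t ∘ h) = A35 z t := by simp only [A35, be3_perm]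

end invs

/-! ### Expansion of the potential -/

/-- The quadratic potential. -/
noncomputable def Pq (c1 c2 c4 : ℝ) (x y : ℝ) : ℝ :=
  x + c1 / 36 * x ^ 2 + c2 / 36 * (x * y) + c4 / 36 * y ^ 2

/-- The coefficient of `v^j` in the expansion of `Kp (Pq c1 c2 c4)`. -/
noncomputable def Aj1 (c1 c2 c4 : ℝ) (z t : Fin 3 → ℝ) : ℝ :=
  A01 z t + c1 / 36 * A11 z t + c2 / 36 * A21 z t + c4 / 36 * A31 z t
noncomputable def Aj2 (c1 c2 c4 : ℝ) (z t : Fin 3 → ℝ) : ℝ :=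
  c1 / 36 * A12 z t + c2 / 36 * A22 z t + c4 / 36 * A32 z t
noncomputable def Aj3 (c1 c2 c4 : ℝ) (z t : Fin 3 → ℝ) : ℝ :=
  c1 / 36 * A13 z t + c2 / 36 * A23 z t + c4 / 36 * A33 z t
noncomputable def Aj4 (c2 c4 : ℝ) (z t : Fin 3 → ℝ) : ℝ :=
  c2 / 36 * A24 z t + c4 / 36 * A34 z t
noncomputable def Aj5 (c4 : ℝ) (z t : Fin 3 → ℝ) : ℝ := c4 / 36 * A35 z t

lemma sum_one_add_mul (z t : Fin 3 → ℝ) (hz : ∑ i, z i = 0) (ht : ∑ i, t i = 0) :
    ∑ i, (1 + z i) * (1 + t i) = 3 * (1 + uu z t) := by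
  have : ∀ i, (1 + z i) * (1 + t i) = 1 + z i + t i + z i * t i := fun i => by ring
  simp only [this, Finset.sum_add_distrib, hz, ht, uu]
  simp
  ring

lemma sum_ww (z t : Fin 3 → ℝ) (hz : ∑ i, z i = 0) (ht : ∑ i, t i = 0) : ∑ i, ww z t i = 0 := by
  have h : ∀ i, ww z t i = t i + z i * t i - uu z t - z i * uu z t := fun i => by
    unfold ww; ring
  simp only [h, Finset.sum_sub_distrib, Finset.sum_add_distrib, ht, ← Finset.sum_mul, hz]
  simp [uu]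
  ring

lemma s2_add_smul (z w : Fin 3 → ℝ) (v : ℝ) :
    s2 (fun i => z i + w i * v) = s2 z + 2 * (∑ i, z i * w i) * v + (∑ i, w i ^ 2) * v ^ 2 := by
  unfold s2
  simp only [Fin.sum_univ_three]
  ring

lemma s3_add_smul (z w : Fin 3 → ℝ) (v : ℝ) :
    s3 (fun i => z i + w i * v) = s3 z + 3 * (∑ i, z i ^ 2 * w i) * v
      + 3 * (∑ i, z i * w i ^ 2) * v ^ 2 + (∑ i, w i ^ 3) * v ^ 3 := by
  unfold s3
  simp only [Fin.sum_univ_three]
  ring

/-- The expansion of the two-point potential. -/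
lemma Kp_expand (c1 c2 c4 : ℝ) (z t : Fin 3 → ℝ) (hz : ∑ i, z i = 0) (ht : ∑ i, t i = 0)
    (hD : 1 + uu z t ≠ 0) :
    Kp (Pq c1 c2 c4) z t
      = (1 + uu z t) * Pq c1 c2 c4 (s2 z) (s3 z)
        + (2 * al1 z t + c1 / 36 * (4 * s2 z * al1 z t)
            + c2 / 36 * (3 * s2 z * be1 z t + 2 * s3 z * al1 z t)
            + c4 / 36 * (6 * s3 z * be1 z t))
        + Aj1 c1 c2 c4 z t * (1 + uu z t)⁻¹ + Aj2 c1 c2 c4 z t * ((1 + uu z t)⁻¹) ^ 2
        + Aj3 c1 c2 c4 z t * ((1 + uu z t)⁻¹) ^ 3 + Aj4 c2 c4 z t * ((1 + uu z t)⁻¹) ^ 4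
        + Aj5 c4 z t * ((1 + uu z t)⁻¹) ^ 5 := by
  set D := 1 + uu z t with hDdef
  set v := D⁻¹ with hv
  have hDv : D * v = 1 := mul_inv_cancel₀ hD
  have hsum := sum_one_add_mul z t hz ht
  rw [← hDdef] at hsum
  have hS : ∑ i, (1 + z i) * (1 + t i) = 3 * D := hsum
  have ho : (fun i => 3 * ((1 + z i) * (1 + t i)) / (∑ k, (1 + z k) * (1 + t k)) - 1)
      = fun i => z i + ww z t i * v := by
    funext i
    rw [hS]
    have h3 : (3 : ℝ) * D ≠ 0 := mul_ne_zero (by norm_num) hD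
    have e : ww z t i = (1 + z i) * (1 + t i) - (1 + z i) * D := by
      unfold ww; rw [hDdef]; ring
    rw [e, hv]
    field_simp
    ring
  have hK : Kp (Pq c1 c2 c4) z t = D * Pq c1 c2 c4 (s2 fun i => z i + ww z t i * v)
      (s3 fun i => z i + ww z t i * v) := by
    unfold Kp Hom
    rw [ho, hS, mul_div_cancel_left₀ _ (by norm_num : (3 : ℝ) ≠ 0)]
  rw [hK, s2_add_smul, s3_add_smul]
  change D * Pq c1 c2 c4 (s2 z + 2 * al1 z t * v + al2 z t * v ^ 2)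
      (s3 z + 3 * be1 z t * v + 3 * be2 z t * v ^ 2 + be3 z t * v ^ 3) = _
  unfold Pq Aj1 Aj2 Aj3 Aj4 Aj5 A01 A11 A21 A31 A12 A22 A32 A13 A23 A33 A24 A34 A35
  generalize al1 z t = a1 at *
  generalize al2 z t = a2 at *
  generalize be1 z t = b1 at *
  generalize be2 z t = b2 at *
  generalize be3 z t = b3 at *
  generalize s2 z = a at *
  generalize s3 z = b at *
  have h2 : D * v ^ 2 = v := by rw [pow_two, ← mul_assoc, hDv, one_mul]
  linear_combination (exp := 1)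
    (2 * a1 + a2 * v + c1 / 36 * (4 * a * a1 + (4 * a1 ^ 2 + 2 * a * a2) * v + 4 * a1 * a2 * v ^ 2 + a2 ^ 2 * v ^ 3)
      + c2 / 36 * (3 * a * b1 + 2 * b * a1 + (3 * a * b2 + 6 * a1 * b1 + b * a2) * v
          + (a * b3 + 6 * a1 * b2 + 3 * a2 * b1) * v ^ 2 + (2 * a1 * b3 + 3 * a2 * b2) * v ^ 3
          + a2 * b3 * v ^ 4)
      + c4 / 36 * (6 * b * b1 + (9 * b1 ^ 2 + 6 * b * b2) * v + (2 * b * b3 + 18 * b1 * b2) * v ^ 2
          + (9 * b2 ^ 2 + 6 * b1 * b3) * v ^ 3 + 6 * b2 * b3 * v ^ 4 + b3 ^ 2 * v ^ 5)) * hDv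

end Vale.Agent.P154
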