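import Vale.Agent.P154.SP.Main
import Vale.Agent.P154.SN.Main
import Vale.Agent.P154.GWSum

/-!
The results from the two stationary certificates.
-/

open Filter Topology

namespace Vale.Agent.P154

lemma neg_range {d lam : ℝ} (hd : 42 ≤ d) (h0 : lam ≤ 0) (hdl : d * lam ^ 2 ≤ 1) :
    -(193 / 1250 : ℝ) ≤ lam := by
  by_contra hn
  rw [not_le] at hn
  have h1 : (193 / 1250 : ℝ) ^ 2 < lam ^ 2 := by nlinarith
  have h2 : 42 * lam ^ 2 ≤ d * lam ^ 2 := mul_le_mul_of_nonneg_right hd (sq_nonneg _)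
  norm_num at h1
  linarith

lemma pos_range {d lam : ℝ} (hd : 15 / 2 ≤ d) (h0 : 0 ≤ lam) (hdl : d * lam ^ 2 ≤ 1) :
    lam ≤ (913 / 2500 : ℝ) := by
  by_contra hn
  rw [not_le] at hn
  have h1 : (913 / 2500 : ℝ) ^ 2 < lam ^ 2 := by nlinarith
  have h2 : 15 / 2 * lam ^ 2 ≤ d * lam ^ 2 := mul_le_mul_of_nonneg_right hd (sq_nonneg _)
  norm_num at h1
  linarith

theorem regular_neg (d : ℕ) (hd : 42 ≤ d) (lam : ℝ) (h0 : lam ≤ 0) (hdl : (d : ℝ) * lam ^ 2 ≤ 1) :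
    Tendsto (reconError 3 d lam) atTop (𝓝 0) := by
  have hd' : (42 : ℝ) ≤ d := by exact_mod_cast hd
  have hl := neg_range hd' h0 hdl
  refine regular_of_stat SN.hc1 SN.hc4 SN.hc lam (by linarith) (by linarith) (by nlinarith)
    (fun z v hz hz1 hv hv1 => SN.stat lam h0 hl z v hz hz1 hv hv1) d (by omega) hdl

theorem gw_neg {off : ℕ → ℝ} (hoff : ∀ N, 0 < off N) (hsum : HasSum off 1) (d : ℝ) (hd : 42 ≤ d)
    (hm : HasSum (fun N : ℕ => off N * (N : ℝ)) d) (lam : ℝ) (h0 : lam ≤ 0) (hdl : d * lam ^ 2 ≤ 1) :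
    Tendsto (gwError 3 off lam) atTop (𝓝 0) := by
  have hl := neg_range hd h0 hdl
  refine gw_of_stat SN.hc1 SN.hc4 SN.hc lam (by linarith) (by linarith) (by nlinarith)
    (fun z v hz hz1 hv hv1 => SN.stat lam h0 hl z v hz hz1 hv hv1) hoff hsum d (by linarith) hm hdl

theorem gw_pos {off : ℕ → ℝ} (hoff : ∀ N, 0 < off N) (hsum : HasSum off 1) (d : ℝ) (hd : 15 / 2 ≤ d)
    (hm : HasSum (fun N : ℕ => off N * (N : ℝ)) d) (lam : ℝ) (h0 : 0 ≤ lam) (hdl : d * lam ^ 2 ≤ 1) :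
    Tendsto (gwError 3 off lam) atTop (𝓝 0) := by
  have hl := pos_range hd h0 hdl
  refine gw_of_stat SP.hc1 SP.hc4 SP.hc lam (by linarith) (by linarith) (by nlinarith)
    (fun z v hz hz1 hv hv1 => SP.stat lam h0 hl z v hz hz1 hv hv1) hoff hsum d (by linarith) hm hdl

end Vale.Agent.P154
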