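import Vale.Agent.P154.Law

/-!
A sharper form of the chain bound, which keeps track of the total mass of a partial product.
-/

open Finset BigOperators Filter Topology

namespace Vale.Agent.P154

section law

variable {X : Type*} [Fintype X]

variable {p : X → ℝ} {y : X → Fin 3 → ℝ} {lam : ℝ}

/-- The invariant on the total mass of a partial product is preserved by one more message. -/
lemma inv_step (lam R Y : ℝ) (hl0 : 0 ≤ lam) (hl1 : lam < 1) (hR6 : R * (1 - lam) = 1 + 2 * lam)
    (v : Fin 3 → ℝ) (hv0 : ∑ i, v i = 0) (hv1 : ∀ i, -1 ≤ v i) (x : Fin 3 → ℝ) (i : Fin 3)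
    (h1 : ∀ l, x l ≤ Y * x i) (h2 : ∑ l, x l ≤ (Y + 2) * x i) (hxi : 0 < x i) :
    ∑ l, x l * (1 + lam * v l) ≤ (Y * R + 2) * (x i * (1 + lam * v i)) := by
  have hY0 : 0 ≤ Y := by
    by_contra hn
    rw [not_le] at hn
    have := h1 i
    nlinarith
  have hw : ∀ l, 0 ≤ lam * (v l + 1) := fun l => mul_nonneg hl0 (by linarith [hv1 l])
  have hsumw : ∑ l, lam * (v l + 1) = 3 * lam := by
    rw [← Finset.mul_sum, Finset.sum_add_distrib, hv0]
    simp
    ring
  have e1 : ∑ l, x l * (1 + lam * v l)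
      = (1 - lam) * ∑ l, x l + ∑ l, (lam * (v l + 1)) * x l := by
    simp only [Fin.sum_univ_three]
    ring
  have e2 : ∑ l, (lam * (v l + 1)) * x l ≤ ∑ l, (lam * (v l + 1)) * (Y * x i) :=
    Finset.sum_le_sum fun l _ => mul_le_mul_of_nonneg_left (h1 l) (hw l)
  rw [← Finset.sum_mul, hsumw] at e2
  have e3 : (1 - lam) * ∑ l, x l ≤ (1 - lam) * ((Y + 2) * x i) :=
    mul_le_mul_of_nonneg_left h2 (by linarith)
  have e4 : 1 - lam ≤ 1 + lam * v i := by nlinarith [hv1 i]
  have hR0 : 0 ≤ R := by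
    by_contra hn
    rw [not_le] at hn
    nlinarith
  have e5 : (Y * R + 2) * (x i * (1 - lam)) ≤ (Y * R + 2) * (x i * (1 + lam * v i)) := by
    apply mul_le_mul_of_nonneg_left _ (by positivity)
    exact mul_le_mul_of_nonneg_left e4 hxi.le
  have e6 : (Y * R + 2) * (x i * (1 - lam)) = Y * x i * (R * (1 - lam)) + 2 * (x i * (1 - lam)) := by
    ring
  rw [hR6] at e6
  rw [e1]
  nlinarith

/-- The chain of potentials gives the one-step bound. -/
theorem chain_bound2
    (hp : ∀ ξ, 0 ≤ p ξ) (hp1 : ∑ ξ, p ξ = 1)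
    (hy0 : ∀ ξ, ∑ i, y ξ i = 0) (hy1 : ∀ ξ i, -1 ≤ y ξ i)
    (hsym : ∀ (g : Equiv.Perm (Fin 3)) (f : (Fin 3 → ℝ) → ℝ),
      ∑ ξ, p ξ * f (y ξ) = ∑ ξ, p ξ * f (fun i => y ξ (g i)))
    (hl0 : 0 ≤ lam) (hl1 : lam < 1)
    (d : ℕ) (hd : 1 ≤ d) (P : ℕ → ℝ → ℝ → ℝ) (κ τ : ℝ) (μ : ℕ → ℝ)
    (hμ : ∀ j, μ j * (2 + ((1 + 2 * lam) / (1 - lam)) ^ j) ≤ 3)
    (hI : ∀ k, k + 1 ≤ d - 1 → ∀ z : Fin 3 → ℝ, ∑ i, z i = 0 → (∀ i, μ (d - (k + 1)) ≤ 1 + z i) →
      ∀ v : Fin 3 → ℝ, ∑ i, v i = 0 → (∀ i, -1 ≤ v i) →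
        (1 / 6 : ℝ) * ∑ g : Equiv.Perm (Fin 3), Kp (P k) z (fun i => lam * v (g i))
          ≤ P (k + 1) (s2 z) (s3 z) + κ * P 0 (s2 v) (s3 v))
    (hT : ∀ v : Fin 3 → ℝ, ∑ i, v i = 0 → (∀ i, -1 ≤ v i) →
        P (d - 1) (s2 fun i => lam * v i) (s3 fun i => lam * v i)
          ≤ κ * P 0 (s2 v) (s3 v) - τ * s2 v ^ 2) :
    mergeA p y lam d (Hom (P 0)) (fun _ => 1)
      ≤ d * κ * (∑ ξ, p ξ * P 0 (s2 (y ξ)) (s3 (y ξ))) - τ * ∑ ξ, p ξ * s2 (y ξ) ^ 2 := by
  classical
  set Φ := ∑ ξ, p ξ * P 0 (s2 (y ξ)) (s3 (y ξ)) with hΦ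
  set R := (1 + 2 * lam) / (1 - lam) with hR
  have h1l : 0 < 1 - lam := by linarith
  have hR1 : 1 ≤ R := by
    rw [hR, le_div_iff₀ h1l]; linarith
  have hpos : ∀ ξ i, 0 < 1 + lam * y ξ i := by
    intro ξ i
    have := hy1 ξ i
    nlinarith
  have hratio : ∀ ξ i l, 1 + lam * y ξ i ≤ R * (1 + lam * y ξ l) := by
    intro ξ i l
    have h2 := y_le_two (hy0 ξ) (hy1 ξ) i
    have h3 := hy1 ξ l
    have h4 : 1 + lam * y ξ i ≤ 1 + 2 * lam := by nlinarith
    have h5 : 1 - lam ≤ 1 + lam * y ξ l := by nlinarith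
    have h6 : R * (1 - lam) = 1 + 2 * lam := by
      rw [hR]; field_simp
    have h7 : 0 ≤ R := by linarith
    nlinarith
  have hR6 : R * (1 - lam) = 1 + 2 * lam := by
    rw [hR]; field_simp
  -- sum formula
  have hsumx : ∀ x : Fin 3 → ℝ,
      ∑ ξ, p ξ * ((∑ i, x i * (1 + lam * y ξ i)) / 3) = (∑ i, x i) / 3 := by
    intro x
    have hm := mean_zero (p := p) (y := y) hy0 hsym
    have : ∀ ξ, p ξ * ((∑ i, x i * (1 + lam * y ξ i)) / 3)
        = p ξ * ((∑ i, x i) / 3) + (lam / 3) * ∑ i, x i * (p ξ * y ξ i) := by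
      intro ξ
      simp only [Fin.sum_univ_three]
      ring
    simp only [this]
    rw [Finset.sum_add_distrib, ← Finset.sum_mul, hp1, one_mul]
    have h2 : ∑ ξ, (lam / 3) * ∑ i, x i * (p ξ * y ξ i) = 0 := by
      rw [← Finset.mul_sum, Finset.sum_comm]
      have : ∀ i, ∑ ξ, x i * (p ξ * y ξ i) = 0 := by
        intro i
        rw [← Finset.mul_sum, hm, mul_zero]
      simp [this]
    rw [h2, add_zero]
  -- main claim
  have claim : ∀ k, k ≤ d - 1 → ∀ x : Fin 3 → ℝ, (∀ i, 0 < x i) →
      (∀ i l, x i ≤ R ^ (d - k) * x l) → (∀ i, ∑ l, x l ≤ (R ^ (d - k) + 2) * x i) →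
      mergeA p y lam k (Hom (P 0)) x ≤ Hom (P k) x + k * ((∑ i, x i) / 3 * (κ * Φ)) := by
    intro k
    induction k with
    | zero =>
      intro _ x _ _ _
      rw [mergeA_zero]; simp
    | succ k ih =>
      intro hk x hx hxr hxs
      rw [mergeA_succ]
      have hS : 0 < ∑ i, x i := Finset.sum_pos (fun i _ => hx i) ⟨0, Finset.mem_univ _⟩
      have hd1 : d - k = d - (k + 1) + 1 := by omega
      have step : ∀ ξ, mergeA p y lam k (Hom (P 0)) (fun i => x i * (1 + lam * y ξ i))
          ≤ Hom (P k) (fun i => x i * (1 + lam * y ξ i))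
            + k * ((∑ i, x i * (1 + lam * y ξ i)) / 3 * (κ * Φ)) := by
        intro ξ
        apply ih (by omega)
        · intro i; exact mul_pos (hx i) (hpos ξ i)
        · intro i l
          rw [hd1, pow_succ]
          have h1 := hxr i l
          have h2 := hratio ξ i l
          have hRp : 0 ≤ R ^ (d - (k + 1)) := by positivity
          calc x i * (1 + lam * y ξ i) ≤ (R ^ (d - (k + 1)) * x l) * (R * (1 + lam * y ξ l)) := by
                apply mul_le_mul h1 h2 (hpos ξ i).le
                exact mul_nonneg hRp (hx l).le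
            _ = _ := by ring
        · intro i
          rw [hd1, pow_succ]
          exact inv_step lam R _ hl0 hl1 hR6 (y ξ) (hy0 ξ) (hy1 ξ) x i
            (fun l => hxr l i) (hxs i) (hx i)
      calc ∑ ξ, p ξ * mergeA p y lam k (Hom (P 0)) (fun i => x i * (1 + lam * y ξ i))
          ≤ ∑ ξ, p ξ * (Hom (P k) (fun i => x i * (1 + lam * y ξ i))
            + k * ((∑ i, x i * (1 + lam * y ξ i)) / 3 * (κ * Φ))) :=
              Finset.sum_le_sum fun ξ _ => mul_le_mul_of_nonneg_left (step ξ) (hp ξ)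
        _ = ∑ ξ, p ξ * Hom (P k) (fun i => x i * (1 + lam * y ξ i))
            + k * ((∑ i, x i) / 3 * (κ * Φ)) := by
              have : ∀ ξ, p ξ * (Hom (P k) (fun i => x i * (1 + lam * y ξ i))
                  + k * ((∑ i, x i * (1 + lam * y ξ i)) / 3 * (κ * Φ)))
                  = p ξ * Hom (P k) (fun i => x i * (1 + lam * y ξ i))
                    + (k * (κ * Φ)) * (p ξ * ((∑ i, x i * (1 + lam * y ξ i)) / 3)) := by
                intro ξ; ring
              simp only [this]
              rw [Finset.sum_add_distrib, ← Finset.mul_sum, hsumx]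
              ring
        _ ≤ Hom (P (k + 1)) x + ((k + 1 : ℕ) : ℝ) * ((∑ i, x i) / 3 * (κ * Φ)) := by
              set z : Fin 3 → ℝ := fun i => 3 * x i / (∑ k, x k) - 1 with hz
              have hz0 : ∑ i, z i = 0 := by
                have h3 : ∑ i, 3 * x i / (∑ k, x k) = 3 := by
                  rw [← Finset.sum_div, ← Finset.mul_sum]
                  field_simp
                simp only [hz, Finset.sum_sub_distrib, h3]
                simp
              have hzμ : ∀ i, μ (d - (k + 1)) ≤ 1 + z i := by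
                intro i
                have hb := hxs i
                have hq : 1 + z i = 3 * x i / ∑ l, x l := by
                  simp only [hz]; ring
                rw [hq, le_div_iff₀ hS]
                have h3 := hμ (d - (k + 1))
                by_cases hm0 : μ (d - (k + 1)) ≤ 0
                · have : μ (d - (k + 1)) * ∑ l, x l ≤ 0 :=
                    mul_nonpos_of_nonpos_of_nonneg hm0 hS.le
                  have := hx i
                  nlinarith
                · push Not at hm0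
                  calc μ (d - (k + 1)) * ∑ l, x l
                      ≤ μ (d - (k + 1)) * ((R ^ (d - (k + 1)) + 2) * x i) :=
                        mul_le_mul_of_nonneg_left hb hm0.le
                    _ = (μ (d - (k + 1)) * (2 + R ^ (d - (k + 1)))) * x i := by ring
                    _ ≤ 3 * x i := mul_le_mul_of_nonneg_right h3 (hx i).le
              have e1 : ∀ ξ, Hom (P k) (fun i => x i * (1 + lam * y ξ i))
                  = (∑ i, x i) / 3 * Kp (P k) z (fun i => lam * y ξ i) := by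
                intro ξ
                exact Hom_mul (P k) x (fun i => lam * y ξ i) hS.ne'
              have e2 : ∑ ξ, p ξ * Kp (P k) z (fun i => lam * y ξ i)
                  ≤ P (k + 1) (s2 z) (s3 z) + κ * Φ := by
                have := avg_sym hsym (fun v => Kp (P k) z (fun i => lam * v i))
                simp only at this
                rw [this]
                calc ∑ ξ, p ξ * ((1 / 6 : ℝ) * ∑ g : Equiv.Perm (Fin 3),
                        Kp (P k) z (fun i => lam * y ξ (g i)))
                    ≤ ∑ ξ, p ξ * (P (k + 1) (s2 z) (s3 z) + κ * P 0 (s2 (y ξ)) (s3 (y ξ))) := by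
                      refine Finset.sum_le_sum fun ξ _ => mul_le_mul_of_nonneg_left ?_ (hp ξ)
                      exact hI k (by omega) z hz0 hzμ (y ξ) (hy0 ξ) (hy1 ξ)
                  _ = P (k + 1) (s2 z) (s3 z) + κ * Φ := by
                      have : ∀ ξ, p ξ * (P (k + 1) (s2 z) (s3 z) + κ * P 0 (s2 (y ξ)) (s3 (y ξ)))
                          = P (k + 1) (s2 z) (s3 z) * p ξ
                            + κ * (p ξ * P 0 (s2 (y ξ)) (s3 (y ξ))) := by
                        intro ξ; ring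
                      simp only [this]
                      rw [Finset.sum_add_distrib, ← Finset.mul_sum, ← Finset.mul_sum, hp1, mul_one]
              have hHom : Hom (P (k + 1)) x = (∑ i, x i) / 3 * P (k + 1) (s2 z) (s3 z) := rfl
              simp only [e1]
              have e3 : ∑ ξ, p ξ * ((∑ i, x i) / 3 * Kp (P k) z (fun i => lam * y ξ i))
                  = (∑ i, x i) / 3 * ∑ ξ, p ξ * Kp (P k) z (fun i => lam * y ξ i) := by
                rw [Finset.mul_sum]
                refine Finset.sum_congr rfl fun ξ _ => ?_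
                ring
              rw [e3, hHom]
              have hS3 : 0 ≤ (∑ i, x i) / 3 := by positivity
              have := mul_le_mul_of_nonneg_left e2 hS3
              push_cast
              nlinarith
  -- the top level
  obtain ⟨d', rfl⟩ : ∃ d', d = d' + 1 := ⟨d - 1, by omega⟩
  rw [mergeA_succ]
  have hstep : ∀ ξ, mergeA p y lam d' (Hom (P 0)) (fun i => 1 * (1 + lam * y ξ i))
      ≤ κ * P 0 (s2 (y ξ)) (s3 (y ξ)) - τ * s2 (y ξ) ^ 2 + d' * (κ * Φ) := by
    intro ξ
    have hsum3 : ∑ i, (1 + lam * y ξ i) = 3 := by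
      rw [Finset.sum_add_distrib, ← Finset.mul_sum, hy0]; simp
    have := claim d' (by omega) (fun i => 1 * (1 + lam * y ξ i))
      (fun i => by simpa using hpos ξ i)
      (fun i l => by
        simp only [one_mul]
        have : d' + 1 - d' = 1 := by omega
        rw [this, pow_one]
        exact hratio ξ i l)
      (fun i => by
        simp only [one_mul]
        have : d' + 1 - d' = 1 := by omega
        rw [this, pow_one, hsum3]
        have h5 := hy1 ξ i
        have h6 : 1 - lam ≤ 1 + lam * y ξ i := by nlinarith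
        have h7 : (R + 2) * (1 - lam) = 3 := by
          rw [hR]; field_simp; ring
        have h8 : 0 ≤ R + 2 := by linarith
        nlinarith)
    simp only [one_mul] at this ⊢
    rw [hsum3] at this
    have h2 : Hom (P d') (fun i => 1 + lam * y ξ i)
        = P d' (s2 fun i => lam * y ξ i) (s3 fun i => lam * y ξ i) :=
      Hom_one_add (P d') (fun i => lam * y ξ i) (by rw [← Finset.mul_sum, hy0, mul_zero])
    rw [h2] at this
    have h3 := hT (y ξ) (hy0 ξ) (hy1 ξ)
    simp only [Nat.add_sub_cancel] at h3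
    have e : (3 : ℝ) / 3 = 1 := by norm_num
    rw [e, one_mul] at this
    linarith
  calc ∑ ξ, p ξ * mergeA p y lam d' (Hom (P 0)) (fun i => 1 * (1 + lam * y ξ i))
      ≤ ∑ ξ, p ξ * (κ * P 0 (s2 (y ξ)) (s3 (y ξ)) - τ * s2 (y ξ) ^ 2 + d' * (κ * Φ)) :=
        Finset.sum_le_sum fun ξ _ => mul_le_mul_of_nonneg_left (hstep ξ) (hp ξ)
    _ = _ := by
        have : ∀ ξ, p ξ * (κ * P 0 (s2 (y ξ)) (s3 (y ξ)) - τ * s2 (y ξ) ^ 2 + d' * (κ * Φ))
            = κ * (p ξ * P 0 (s2 (y ξ)) (s3 (y ξ))) - τ * (p ξ * s2 (y ξ) ^ 2)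
              + (d' * (κ * Φ)) * p ξ := by
          intro ξ; ring
        simp only [this]
        rw [Finset.sum_add_distrib, Finset.sum_sub_distrib, ← Finset.mul_sum, ← Finset.mul_sum,
          ← Finset.mul_sum, hp1, ← hΦ]
        push_cast
        ring

end law

end Vale.Agent.P154
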