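import Vale.Agent.P154.Law

open Finset BigOperators Filter Topology

namespace Vale.Agent.P154

/-- Leaf configurations at depth `n`. -/
abbrev Cfg (d n : ℕ) := (Fin n → Fin d) → Fin 3

/-- Splitting a configuration at depth `n+1` into the configurations of the `d` subtrees. -/
def cfgEquiv (d n : ℕ) : Cfg d (n + 1) ≃ (Fin d → Cfg d n) where
  toFun η c w := η (Fin.cons c w)
  invFun f w := f (w 0) (Fin.tail w)
  left_inv η := by funext w; simp [Fin.cons_self_tail]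
  right_inv f := by funext c w; simp

section

variable {d : ℕ} {lam : ℝ}

lemma potts_nonneg (h0 : 0 ≤ lam) (h1 : lam ≤ 1) (i j : Fin 3) : 0 ≤ potts 3 lam i j := by
  unfold potts
  have : 0 ≤ (1 - lam) / ((3 : ℕ) : ℝ) := by
    push_cast; linarith
  split_ifs <;> linarith

lemma potts_sum (lam : ℝ) (i : Fin 3) (w : Fin 3 → ℝ) :
    ∑ j, potts 3 lam i j * w j = lam * w i + (1 - lam) / 3 * ∑ j, w j := by
  unfold potts
  simp only [add_mul, Finset.sum_add_distrib, ite_mul, zero_mul, Finset.sum_ite_eq, Finset.mem_univ,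
    if_true, ← Finset.mul_sum]
  push_cast
  ring

/-- Total mass at `η`. -/
noncomputable def Sn (d : ℕ) (lam : ℝ) (n : ℕ) (η : Cfg d n) : ℝ :=
  ∑ i, leafLik 3 d lam n i η

/-- Posterior vector. -/
noncomputable def yn (d : ℕ) (lam : ℝ) (n : ℕ) (η : Cfg d n) (i : Fin 3) : ℝ :=
  3 * leafLik 3 d lam n i η / Sn d lam n η - 1

/-- Marginal probability. -/
noncomputable def pn (d : ℕ) (lam : ℝ) (n : ℕ) (η : Cfg d n) : ℝ := Sn d lam n η / 3

lemma leafLik_succ (n : ℕ) (i : Fin 3) (η : Cfg d (n + 1)) :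
    leafLik 3 d lam (n + 1) i η
      = ∏ c : Fin d, ∑ j : Fin 3, potts 3 lam i j * leafLik 3 d lam n j (cfgEquiv d n η c) := rfl

lemma leafLik_nonneg (h0 : 0 ≤ lam) (h1 : lam ≤ 1) (n : ℕ) (i : Fin 3) (η : Cfg d n) :
    0 ≤ leafLik 3 d lam n i η := by
  induction n generalizing i with
  | zero =>
    unfold leafLik
    split_ifs <;> norm_num
  | succ n ih =>
    rw [leafLik_succ]
    refine Finset.prod_nonneg fun c _ => Finset.sum_nonneg fun j _ => ?_
    exact mul_nonneg (potts_nonneg h0 h1 i j) (ih _ _)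

lemma Sn_pos (h0 : 0 ≤ lam) (h1 : lam < 1) (n : ℕ) (η : Cfg d n) : 0 < Sn d lam n η := by
  induction n with
  | zero =>
    unfold Sn
    have : leafLik 3 d lam 0 (η Fin.elim0) η = 1 := by
      unfold leafLik; simp
    have h2 : ∀ i ∈ (Finset.univ : Finset (Fin 3)), 0 ≤ leafLik 3 d lam 0 i η :=
      fun i _ => leafLik_nonneg h0 h1.le 0 i η
    have h3 := Finset.single_le_sum h2 (Finset.mem_univ (η Fin.elim0))
    rw [this] at h3
    linarith
  | succ n ih =>
    unfold Sn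
    refine Finset.sum_pos (fun i _ => ?_) ⟨0, Finset.mem_univ _⟩
    rw [leafLik_succ]
    refine Finset.prod_pos fun c _ => ?_
    rw [potts_sum]
    have h2 := ih (cfgEquiv d n η c)
    unfold Sn at h2
    have h3 := leafLik_nonneg (d := d) h0 h1.le n i (cfgEquiv d n η c)
    have h4 : 0 < (1 - lam) / 3 := by linarith
    have : 0 ≤ lam * leafLik 3 d lam n i (cfgEquiv d n η c) := mul_nonneg h0 h3
    have := mul_pos h4 h2
    linarith

lemma sum_leafLik (n : ℕ) (i : Fin 3) :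
    ∑ η : Cfg d n, leafLik 3 d lam n i η = 1 := by
  induction n generalizing i with
  | zero =>
    rw [← (Equiv.funUnique (Fin 0 → Fin d) (Fin 3)).symm.sum_comp]
    simp only [leafLik, Equiv.funUnique_symm_apply, uniqueElim_const]
    simp
  | succ n ih =>
    rw [← (cfgEquiv d n).symm.sum_comp]
    simp only [leafLik_succ, Equiv.apply_symm_apply]
    have : ∑ f : Fin d → Cfg d n, ∏ c, ∑ j, potts 3 lam i j * leafLik 3 d lam n j (f c)
        = ∏ c : Fin d, ∑ ξ : Cfg d n, ∑ j, potts 3 lam i j * leafLik 3 d lam n j ξ := by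
      rw [Finset.prod_univ_sum, Fintype.piFinset_univ]
    rw [this]
    have h2 : ∑ ξ : Cfg d n, ∑ j, potts 3 lam i j * leafLik 3 d lam n j ξ = 1 := by
      rw [Finset.sum_comm]
      simp only [← Finset.mul_sum, ih, mul_one]
      have := potts_sum lam i (fun _ => 1)
      simp only [mul_one] at this
      rw [this]
      simp
    simp [h2]

lemma potts_perm (g : Equiv.Perm (Fin 3)) (i j : Fin 3) :
    potts 3 lam (g i) (g j) = potts 3 lam i j := by
  unfold potts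
  simp

/-- Colour-permutation equivariance of the likelihoods. -/
lemma leafLik_perm (g : Equiv.Perm (Fin 3)) (n : ℕ) (i : Fin 3) (η : Cfg d n) :
    leafLik 3 d lam n (g i) (fun w => g (η w)) = leafLik 3 d lam n i η := by
  induction n generalizing i with
  | zero =>
    simp [leafLik]
  | succ n ih =>
    rw [leafLik_succ, leafLik_succ]
    refine Finset.prod_congr rfl fun c _ => ?_
    rw [← Equiv.sum_comp g]
    refine Finset.sum_congr rfl fun j _ => ?_
    rw [potts_perm]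
    congr 1
    exact ih j (cfgEquiv d n η c)

lemma Sn_perm (g : Equiv.Perm (Fin 3)) (n : ℕ) (η : Cfg d n) :
    Sn d lam n (fun w => g (η w)) = Sn d lam n η := by
  unfold Sn
  rw [← Equiv.sum_comp g]
  exact Finset.sum_congr rfl fun i _ => leafLik_perm g n i η

lemma yn_perm (g : Equiv.Perm (Fin 3)) (n : ℕ) (η : Cfg d n) (i : Fin 3) :
    yn d lam n (fun w => g (η w)) i = yn d lam n η (g⁻¹ i) := by
  unfold yn
  rw [Sn_perm]
  have := leafLik_perm (lam := lam) g n (g⁻¹ i) η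
  rw [show g (g⁻¹ i) = i by simp] at this
  rw [this]

/-- Configuration action. -/
def cfgPerm (d n : ℕ) (g : Equiv.Perm (Fin 3)) : Cfg d n ≃ Cfg d n :=
  Equiv.arrowCongr (Equiv.refl _) g

lemma law_sym (n : ℕ) (g : Equiv.Perm (Fin 3)) (f : (Fin 3 → ℝ) → ℝ) :
    ∑ η : Cfg d n, pn d lam n η * f (yn d lam n η)
      = ∑ η : Cfg d n, pn d lam n η * f (fun i => yn d lam n η (g i)) := by
  rw [← (cfgPerm d n g⁻¹).sum_comp]
  refine Finset.sum_congr rfl fun η _ => ?_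
  have h1 : (cfgPerm d n g⁻¹) η = fun w => g⁻¹ (η w) := rfl
  rw [h1]
  unfold pn
  rw [Sn_perm]
  congr 2
  funext i
  rw [yn_perm]
  simp

lemma sum_pn (n : ℕ) : ∑ η : Cfg d n, pn d lam n η = 1 := by
  unfold pn Sn
  rw [← Finset.sum_div, Finset.sum_comm]
  simp only [sum_leafLik]
  simp

lemma pn_nonneg (h0 : 0 ≤ lam) (h1 : lam < 1) (n : ℕ) (η : Cfg d n) : 0 ≤ pn d lam n η := by
  unfold pn
  have := Sn_pos h0 h1 n η
  positivity

lemma yn_sum (h0 : 0 ≤ lam) (h1 : lam < 1) (n : ℕ) (η : Cfg d n) : ∑ i, yn d lam n η i = 0 := by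
  unfold yn
  have hS := Sn_pos h0 h1 n η
  rw [Finset.sum_sub_distrib, ← Finset.sum_div, ← Finset.mul_sum]
  change 3 * Sn d lam n η / Sn d lam n η - _ = 0
  field_simp
  simp

lemma yn_ge (h0 : 0 ≤ lam) (h1 : lam < 1) (n : ℕ) (η : Cfg d n) (i : Fin 3) :
    -1 ≤ yn d lam n η i := by
  unfold yn
  have hS := Sn_pos h0 h1 n η
  have := leafLik_nonneg (d := d) h0 h1.le n i η
  have : 0 ≤ 3 * leafLik 3 d lam n i η / Sn d lam n η := by positivity
  linarith

/-- The message passed through an edge. -/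
lemma message (h0 : 0 ≤ lam) (h1 : lam < 1) (n : ℕ) (ξ : Cfg d n) (i : Fin 3) :
    ∑ j, potts 3 lam i j * leafLik 3 d lam n j ξ
      = pn d lam n ξ * (1 + lam * yn d lam n ξ i) := by
  rw [potts_sum]
  have hS := Sn_pos h0 h1 n ξ
  unfold pn yn
  change _ + (1 - lam) / 3 * Sn d lam n ξ = _
  field_simp
  ring

/-- The potential expectation at depth `n+1` is a merge of `d` messages from depth `n`. -/
lemma phi_succ (h0 : 0 ≤ lam) (h1 : lam < 1) (n : ℕ) (P : ℝ → ℝ → ℝ) :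
    ∑ η : Cfg d (n + 1), pn d lam (n + 1) η * P (s2 (yn d lam (n + 1) η)) (s3 (yn d lam (n + 1) η))
      = mergeA (pn d lam n) (yn d lam n) lam d (Hom P) (fun _ => 1) := by
  unfold mergeA
  rw [← (cfgEquiv d n).symm.sum_comp]
  refine Finset.sum_congr rfl fun f _ => ?_
  set η := (cfgEquiv d n).symm f with hη
  have hf : ∀ c, cfgEquiv d n η c = f c := by
    intro c; rw [hη]; simp
  have hW : ∀ i, leafLik 3 d lam (n + 1) i η
      = (∏ c, pn d lam n (f c)) * ∏ c, (1 + lam * yn d lam n (f c) i) := by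
    intro i
    rw [leafLik_succ, ← Finset.prod_mul_distrib]
    refine Finset.prod_congr rfl fun c _ => ?_
    rw [hf, message h0 h1]
  have hPi : (∏ c, pn d lam n (f c)) ≠ 0 := by
    refine Finset.prod_ne_zero_iff.mpr fun c _ => ?_
    unfold pn
    have := Sn_pos h0 h1 n (f c)
    positivity
  have hL : pn d lam (n + 1) η * P (s2 (yn d lam (n + 1) η)) (s3 (yn d lam (n + 1) η))
      = Hom P (fun i => leafLik 3 d lam (n + 1) i η) := rfl
  rw [hL]
  simp only [hW, one_mul]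
  exact Hom_smul P _ hPi _

/-- Recursion for the potential. -/
lemma phi_recursion (h0 : 0 ≤ lam) (h1 : lam < 1) (n : ℕ) (hd1 : 1 ≤ d)
    (P : ℕ → ℝ → ℝ → ℝ) (κ τ : ℝ) (μ : ℕ → ℝ)
    (hμ : ∀ j, μ j * (1 + 2 * ((1 + 2 * lam) / (1 - lam)) ^ j) ≤ 3)
    (hI : ∀ k, k + 1 ≤ d - 1 → ∀ z : Fin 3 → ℝ, ∑ i, z i = 0 → (∀ i, μ (d - (k + 1)) ≤ 1 + z i) →
      ∀ v : Fin 3 → ℝ, ∑ i, v i = 0 → (∀ i, -1 ≤ v i) →
        (1 / 6 : ℝ) * ∑ g : Equiv.Perm (Fin 3), Kp (P k) z (fun i => lam * v (g i))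
          ≤ P (k + 1) (s2 z) (s3 z) + κ * P 0 (s2 v) (s3 v))
    (hT : ∀ v : Fin 3 → ℝ, ∑ i, v i = 0 → (∀ i, -1 ≤ v i) →
        P (d - 1) (s2 fun i => lam * v i) (s3 fun i => lam * v i)
          ≤ κ * P 0 (s2 v) (s3 v) - τ * s2 v ^ 2) :
    ∑ η : Cfg d (n + 1), pn d lam (n + 1) η * P 0 (s2 (yn d lam (n + 1) η)) (s3 (yn d lam (n + 1) η))
      ≤ d * κ * (∑ η : Cfg d n, pn d lam n η * P 0 (s2 (yn d lam n η)) (s3 (yn d lam n η)))
        - τ * ∑ η : Cfg d n, pn d lam n η * s2 (yn d lam n η) ^ 2 := by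
  rw [phi_succ h0 h1 n (P 0)]
  exact chain_bound (fun η => pn_nonneg h0 h1 n η) (sum_pn n) (fun η => yn_sum h0 h1 n η)
    (fun η i => yn_ge h0 h1 n η i) (fun g f => law_sym n g f) h0 h1 d hd1 P κ τ μ hμ hI hT

/-- Bound on the reconstruction error by the second moment. -/
lemma reconError_sq_le (h0 : 0 ≤ lam) (h1 : lam < 1) (n : ℕ) :
    reconError 3 d lam n ^ 2 ≤ (∑ η : Cfg d n, pn d lam n η * s2 (yn d lam n η)) / 12 := by
  have hl : ∀ η : Cfg d n, leafProb 3 d lam n η = pn d lam n η := by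
    intro η
    unfold leafProb jointProb pn Sn
    rw [← Finset.mul_sum]
    push_cast
    ring
  have hj : ∀ (η : Cfg d n) (i : Fin 3),
      |jointProb 3 d lam n i η / pn d lam n η - 1 / ((3 : ℕ) : ℝ)|
        = |yn d lam n η i| / 3 := by
    intro η i
    have hS := Sn_pos h0 h1 n η
    have e : jointProb 3 d lam n i η / pn d lam n η - 1 / ((3 : ℕ) : ℝ) = yn d lam n η i / 3 := by
      unfold jointProb pn yn
      push_cast
      field_simp
    rw [e, abs_div]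
    simp
  have e1 : reconError 3 d lam n
      = ∑ η : Cfg d n, pn d lam n η * ((1 / 6 : ℝ) * ∑ i, |yn d lam n η i|) := by
    unfold reconError
    refine Finset.sum_congr rfl fun η _ => ?_
    rw [hl]
    congr 1
    simp only [hj, Fin.sum_univ_three]
    ring
  rw [e1]
  -- Cauchy-Schwarz (Jensen) for the probability weights
  have hp := fun η : Cfg d n => pn_nonneg (d := d) h0 h1 n η
  have hp1 := sum_pn (d := d) (lam := lam) n
  have cs : (∑ η : Cfg d n, pn d lam n η * ((1 / 6 : ℝ) * ∑ i, |yn d lam n η i|)) ^ 2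
      ≤ ∑ η : Cfg d n, pn d lam n η * ((1 / 6 : ℝ) * ∑ i, |yn d lam n η i|) ^ 2 := by
    have h := Finset.sum_mul_sq_le_sq_mul_sq (Finset.univ : Finset (Cfg d n))
      (fun η => Real.sqrt (pn d lam n η))
      (fun η => Real.sqrt (pn d lam n η) * ((1 / 6 : ℝ) * ∑ i, |yn d lam n η i|))
    have e2 : ∀ η, Real.sqrt (pn d lam n η) *
        (Real.sqrt (pn d lam n η) * ((1 / 6 : ℝ) * ∑ i, |yn d lam n η i|))
        = pn d lam n η * ((1 / 6 : ℝ) * ∑ i, |yn d lam n η i|) := by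
      intro η
      rw [← mul_assoc, Real.mul_self_sqrt (hp η)]
    have e3 : ∀ η, Real.sqrt (pn d lam n η) ^ 2 = pn d lam n η := fun η => Real.sq_sqrt (hp η)
    have e4 : ∀ η, (Real.sqrt (pn d lam n η) * ((1 / 6 : ℝ) * ∑ i, |yn d lam n η i|)) ^ 2
        = pn d lam n η * ((1 / 6 : ℝ) * ∑ i, |yn d lam n η i|) ^ 2 := by
      intro η
      rw [mul_pow, e3]
    simp only [e2, e3, e4, hp1, one_mul] at h
    exact h
  refine cs.trans ?_
  rw [Finset.sum_div]
  refine Finset.sum_le_sum fun η _ => ?_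
  rw [mul_div_assoc]
  refine mul_le_mul_of_nonneg_left ?_ (hp η)
  unfold s2
  simp only [Fin.sum_univ_three]
  have a0 := abs_nonneg (yn d lam n η 0)
  have a1 := abs_nonneg (yn d lam n η 1)
  have a2 := abs_nonneg (yn d lam n η 2)
  rw [← sq_abs (yn d lam n η 0), ← sq_abs (yn d lam n η 1), ← sq_abs (yn d lam n η 2)]
  nlinarith [sq_nonneg (|yn d lam n η 0| - |yn d lam n η 1|),
    sq_nonneg (|yn d lam n η 0| - |yn d lam n η 2|),
    sq_nonneg (|yn d lam n η 1| - |yn d lam n η 2|)]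

end

end Vale.Agent.P154

namespace Vale.Agent.P154

/-- Non-reconstruction from a chain of potentials. -/
theorem nonrecon_of_chain {d : ℕ} {lam : ℝ} (hd1 : 1 ≤ d) (h0 : 0 ≤ lam) (h1 : lam < 1)
    (P : ℕ → ℝ → ℝ → ℝ) (τ ε C : ℝ) (μ : ℕ → ℝ) (hτ : 0 < τ) (hε : 0 < ε) (hC : 0 < C)
    (hμ : ∀ j, μ j * (1 + 2 * ((1 + 2 * lam) / (1 - lam)) ^ j) ≤ 3)
    (hI : ∀ k, k + 1 ≤ d - 1 → ∀ z : Fin 3 → ℝ, ∑ i, z i = 0 → (∀ i, μ (d - (k + 1)) ≤ 1 + z i) →
      ∀ v : Fin 3 → ℝ, ∑ i, v i = 0 → (∀ i, -1 ≤ v i) →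
        (1 / 6 : ℝ) * ∑ g : Equiv.Perm (Fin 3), Kp (P k) z (fun i => lam * v (g i))
          ≤ P (k + 1) (s2 z) (s3 z) + (1 / d : ℝ) * P 0 (s2 v) (s3 v))
    (hT : ∀ v : Fin 3 → ℝ, ∑ i, v i = 0 → (∀ i, -1 ≤ v i) →
        P (d - 1) (s2 fun i => lam * v i) (s3 fun i => lam * v i)
          ≤ (1 / d : ℝ) * P 0 (s2 v) (s3 v) - τ * s2 v ^ 2)
    (hlow : ∀ v : Fin 3 → ℝ, ∑ i, v i = 0 → (∀ i, -1 ≤ v i) → ε * s2 v ≤ P 0 (s2 v) (s3 v))
    (hup : ∀ v : Fin 3 → ℝ, ∑ i, v i = 0 → (∀ i, -1 ≤ v i) → P 0 (s2 v) (s3 v) ≤ C * s2 v) :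
    Tendsto (reconError 3 d lam) atTop (𝓝 0) := by
  set Φ : ℕ → ℝ := fun n =>
    ∑ η : Cfg d n, pn d lam n η * P 0 (s2 (yn d lam n η)) (s3 (yn d lam n η)) with hΦ
  set e : ℕ → ℝ := fun n => ∑ η : Cfg d n, pn d lam n η * s2 (yn d lam n η) with he
  have hdpos : (0 : ℝ) < d := by exact_mod_cast hd1
  have hp := fun n (η : Cfg d n) => pn_nonneg (d := d) h0 h1 n η
  have hrec : ∀ n, Φ (n + 1) ≤ Φ n - τ * ∑ η : Cfg d n, pn d lam n η * s2 (yn d lam n η) ^ 2 := by
    intro n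
    have := phi_recursion (d := d) (lam := lam) h0 h1 n hd1 P (1 / d : ℝ) τ μ hμ hI hT
    have e1 : (d : ℝ) * (1 / d : ℝ) = 1 := by field_simp
    rw [e1, one_mul] at this
    exact this
  have hΦe : ∀ n, Φ n ≤ C * e n := by
    intro n
    simp only [hΦ, he]
    rw [Finset.mul_sum]
    refine Finset.sum_le_sum fun η _ => ?_
    have := hup _ (yn_sum h0 h1 n η) (yn_ge h0 h1 n η)
    calc _ ≤ pn d lam n η * (C * s2 (yn d lam n η)) := mul_le_mul_of_nonneg_left this (hp n η)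
      _ = _ := by ring
  have heΦ : ∀ n, ε * e n ≤ Φ n := by
    intro n
    simp only [hΦ, he]
    rw [Finset.mul_sum]
    refine Finset.sum_le_sum fun η _ => ?_
    have := hlow _ (yn_sum h0 h1 n η) (yn_ge h0 h1 n η)
    calc _ = pn d lam n η * (ε * s2 (yn d lam n η)) := by ring
      _ ≤ _ := mul_le_mul_of_nonneg_left this (hp n η)
  have he0 : ∀ n, 0 ≤ e n := by
    intro n
    refine Finset.sum_nonneg fun η _ => mul_nonneg (hp n η) ?_
    unfold s2
    exact Finset.sum_nonneg fun i _ => sq_nonneg _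
  have hΦ0 : ∀ n, 0 ≤ Φ n := fun n => le_trans (mul_nonneg hε.le (he0 n)) (heΦ n)
  have hcs : ∀ n, e n ^ 2 ≤ ∑ η : Cfg d n, pn d lam n η * s2 (yn d lam n η) ^ 2 := by
    intro n
    have h := Finset.sum_mul_sq_le_sq_mul_sq (Finset.univ : Finset (Cfg d n))
      (fun η => Real.sqrt (pn d lam n η))
      (fun η => Real.sqrt (pn d lam n η) * s2 (yn d lam n η))
    have e2 : ∀ η : Cfg d n, Real.sqrt (pn d lam n η) *
        (Real.sqrt (pn d lam n η) * s2 (yn d lam n η))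
        = pn d lam n η * s2 (yn d lam n η) := by
      intro η
      rw [← mul_assoc, Real.mul_self_sqrt (hp n η)]
    have e3 : ∀ η : Cfg d n, Real.sqrt (pn d lam n η) ^ 2 = pn d lam n η :=
      fun η => Real.sq_sqrt (hp n η)
    have e4 : ∀ η : Cfg d n, (Real.sqrt (pn d lam n η) * s2 (yn d lam n η)) ^ 2
        = pn d lam n η * s2 (yn d lam n η) ^ 2 := by
      intro η
      rw [mul_pow, e3]
    have hp1 := sum_pn (d := d) (lam := lam) n
    simp only [e2, e3, e4, hp1, one_mul] at h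
    exact h
  have hdec : ∀ n, Φ (n + 1) ≤ Φ n - τ * (Φ n / C) ^ 2 := by
    intro n
    have h1' := hrec n
    have h2 := hcs n
    have h3 : Φ n / C ≤ e n := by
      rw [div_le_iff₀ hC]; linarith [hΦe n]
    have h4 : 0 ≤ Φ n / C := div_nonneg (hΦ0 n) hC.le
    have h5 : (Φ n / C) ^ 2 ≤ e n ^ 2 := by
      exact pow_le_pow_left₀ h4 h3 2
    have h6 : τ * (Φ n / C) ^ 2 ≤ τ * ∑ η : Cfg d n, pn d lam n η * s2 (yn d lam n η) ^ 2 :=
      mul_le_mul_of_nonneg_left (h5.trans h2) hτ.le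
    linarith
  have hanti : Antitone Φ := by
    refine antitone_nat_of_succ_le fun n => ?_
    have := hdec n
    have : 0 ≤ τ * (Φ n / C) ^ 2 := by positivity
    linarith
  have hbdd : BddBelow (Set.range Φ) := ⟨0, by rintro _ ⟨n, rfl⟩; exact hΦ0 n⟩
  have hlim := tendsto_atTop_ciInf hanti hbdd
  set L := ⨅ n, Φ n with hL
  have hL0 : 0 ≤ L := le_ciInf hΦ0
  have hlim2 : Tendsto (fun n => Φ n - τ * (Φ n / C) ^ 2) atTop (𝓝 (L - τ * (L / C) ^ 2)) :=
    hlim.sub (((hlim.div_const C).pow 2).const_mul τ)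
  have hle : L ≤ L - τ * (L / C) ^ 2 :=
    le_of_tendsto_of_tendsto' (hlim.comp (tendsto_add_atTop_nat 1)) hlim2 hdec
  have hLz : L = 0 := by
    have h2 : τ * (L / C) ^ 2 ≤ 0 := by linarith
    have h3 : 0 ≤ τ * (L / C) ^ 2 := by positivity
    have h4 : τ * (L / C) ^ 2 = 0 := le_antisymm h2 h3
    have h5 : (L / C) ^ 2 = 0 := by
      rcases mul_eq_zero.mp h4 with h | h
      · exact absurd h hτ.ne'
      · exact h
    have h6 : L / C = 0 := by simpa using h5
    rcases div_eq_zero_iff.mp h6 with h | h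
    · exact h
    · exact absurd h hC.ne'
  rw [hLz] at hlim
  -- second moment tends to zero
  have he_lim : Tendsto e atTop (𝓝 0) := by
    refine squeeze_zero he0 (fun n => ?_) (by simpa using hlim.div_const ε)
    rw [le_div_iff₀ hε]
    linarith [heΦ n]
  -- reconstruction error
  have hsq : ∀ n, reconError 3 d lam n ^ 2 ≤ e n / 12 := fun n => reconError_sq_le h0 h1 n
  have h12 : Tendsto (fun n => Real.sqrt (e n / 12)) atTop (𝓝 0) := by
    have := (he_lim.div_const 12).sqrt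
    simpa using this
  refine squeeze_zero_norm (fun n => ?_) h12
  rw [Real.norm_eq_abs]
  exact Real.abs_le_sqrt (hsq n)

end Vale.Agent.P154
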